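import Vale.Agent.P365.SH.Choice
import Vale.Agent.P365.C937.Wave

/-!
P365 T1, the shield, part 7: transport of the separable matrix to the box of the square lattice.
-/

open MeasureTheory Set Matrix
open scoped ENNReal

namespace P365SH

open Vale.Agent.P365.C937

/-- The box `[-r, r]²`. -/
noncomputable def Xr (r : ℕ) : Finset (ℤ × ℤ) := box1 r ×ˢ box1 r

lemma mem_Xr {r : ℕ} {x : ℤ × ℤ} :
    x ∈ Xr r ↔ (-(r : ℤ) ≤ x.1 ∧ x.1 ≤ r) ∧ (-(r : ℤ) ≤ x.2 ∧ x.2 ≤ r) := by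
  unfold Xr box1
  rw [Finset.mem_product, Finset.mem_Icc, Finset.mem_Icc]

/-- The coordinates of a site of the box. -/
noncomputable def eX (r : ℕ) : ↥(Xr r) ≃ Fin (2 * r + 1) × Fin (2 * r + 1) where
  toFun x := (⟨((x : ℤ × ℤ).1 + r).toNat, by have := mem_Xr.1 x.2; omega⟩,
    ⟨((x : ℤ × ℤ).2 + r).toNat, by have := mem_Xr.1 x.2; omega⟩)
  invFun p := ⟨((p.1.val : ℤ) - r, (p.2.val : ℤ) - r), by
    rw [mem_Xr]
    have h1 := p.1.2
    have h2 := p.2.2
    simp only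
    omega⟩
  left_inv x := by
    have := mem_Xr.1 x.2
    apply Subtype.ext
    apply Prod.ext
    · simp only; omega
    · simp only; omega
  right_inv p := by
    apply Prod.ext
    · apply Fin.ext; simp
    · apply Fin.ext; simp

lemma eX_fst (r : ℕ) (x : Xr r) : (((eX r x).1.val : ℕ) : ℤ) = (x : ℤ × ℤ).1 + r := by
  have := mem_Xr.1 x.2
  simp only [eX, Equiv.coe_fn_mk]
  omega

lemma eX_snd (r : ℕ) (x : Xr r) : (((eX r x).2.val : ℕ) : ℤ) = (x : ℤ × ℤ).2 + r := by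
  have := mem_Xr.1 x.2
  simp only [eX, Equiv.coe_fn_mk]
  omega

/-- The sup distance of two sites. -/
def dist8 (p q : ℤ × ℤ) : ℕ := max (p.1 - q.1).natAbs (p.2 - q.2).natAbs

lemma dist8_eq (r : ℕ) (p q : Xr r) : max (dd (eX r p).1.val (eX r q).1.val)
    (dd (eX r p).2.val (eX r q).2.val) = dist8 p q := by
  have h1 := eX_fst r p
  have h2 := eX_fst r q
  have h3 := eX_snd r p
  have h4 := eX_snd r q
  unfold dist8 dd
  congr 1 <;> omega

lemma dist8_tri (p q s : ℤ × ℤ) : dist8 p s ≤ dist8 p q + dist8 q s := by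
  unfold dist8
  omega

/-- The potential of the box. -/
noncomputable def WX {r : ℕ} (V1 V2 : Fin (2 * r + 1) → ℝ) (z0 : ℝ) (x : Xr r) : ℝ :=
  V1 (eX r x).1 + V2 (eX r x).2 - z0

lemma box_eq {r : ℕ} (V1 V2 : Fin (2 * r + 1) → ℝ) (z0 t : ℝ) :
    AX (Xr r) + diagonal (WX V1 V2 z0) - t • (1 : Matrix (Xr r) (Xr r) ℝ) =
      (M2 V1 V2 (z0 + t)).submatrix (eX r) (eX r) := by
  ext p q
  simp only [Matrix.sub_apply, Matrix.add_apply, Matrix.submatrix_apply, Matrix.smul_apply,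
    M2, sepM, M1, smul_eq_mul, AX, adjw, A1]
  have hp1 := eX_fst r p
  have hp2 := eX_snd r p
  have hq1 := eX_fst r q
  have hq2 := eX_snd r q
  by_cases h : p = q
  · subst h
    simp [WX]
    ring
  · have hne : (eX r p) ≠ (eX r q) := fun he => h ((eX r).injective he)
    have hpq : ¬ ((p : ℤ × ℤ).1 = (q : ℤ × ℤ).1 ∧ (p : ℤ × ℤ).2 = (q : ℤ × ℤ).2) := by
      rintro ⟨h1, h2⟩
      exact h (Subtype.ext (Prod.ext h1 h2))
    rw [Matrix.one_apply_ne h, Matrix.one_apply_ne hne, Matrix.diagonal_apply_ne _ h]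
    by_cases c1 : (eX r p).1 = (eX r q).1
    · by_cases c2 : (eX r p).2 = (eX r q).2
      · exact absurd (Prod.ext c1 c2) hne
      · have c1' : (p : ℤ × ℤ).1 = (q : ℤ × ℤ).1 := by rw [c1] at hp1; omega
        have c2' : (p : ℤ × ℤ).2 ≠ (q : ℤ × ℤ).2 := fun hh => hpq ⟨c1', hh⟩
        rw [if_pos c1, if_neg c2, Matrix.diagonal_apply_ne _ c2]
        simp only [mul_zero, add_zero, zero_add, one_mul, sub_zero]
        by_cases c3 : ((p : ℤ × ℤ).1 - (q : ℤ × ℤ).1).natAbs +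
            ((p : ℤ × ℤ).2 - (q : ℤ × ℤ).2).natAbs = 1
        · rw [if_pos c3]
          by_cases c4 : (eX r q).2.val = (eX r p).2.val + 1
          · rw [if_pos c4, if_neg (by omega)]; norm_num
          · rw [if_neg c4, if_pos (by omega)]; norm_num
        · rw [if_neg c3, if_neg (by omega), if_neg (by omega)]; norm_num
    · by_cases c2 : (eX r p).2 = (eX r q).2
      · have c2' : (p : ℤ × ℤ).2 = (q : ℤ × ℤ).2 := by rw [c2] at hp2; omega
        rw [if_neg c1, if_pos c2, Matrix.diagonal_apply_ne _ c1]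
        simp only [mul_one, zero_mul, add_zero, zero_add, mul_zero, sub_zero]
        by_cases c3 : ((p : ℤ × ℤ).1 - (q : ℤ × ℤ).1).natAbs +
            ((p : ℤ × ℤ).2 - (q : ℤ × ℤ).2).natAbs = 1
        · rw [if_pos c3]
          by_cases c4 : (eX r q).1.val = (eX r p).1.val + 1
          · rw [if_pos c4, if_neg (by omega)]; norm_num
          · rw [if_neg c4, if_pos (by omega)]; norm_num
        · rw [if_neg c3, if_neg (by omega), if_neg (by omega)]; norm_num
      · rw [if_neg c1, if_neg c2]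
        have c1' : (p : ℤ × ℤ).1 ≠ (q : ℤ × ℤ).1 := fun hh => c1 (Fin.ext (by omega))
        have c2' : (p : ℤ × ℤ).2 ≠ (q : ℤ × ℤ).2 := fun hh => c2 (Fin.ext (by omega))
        rw [if_neg (by omega)]
        simp

lemma box_inv {r : ℕ} (V1 V2 : Fin (2 * r + 1) → ℝ) (z0 t : ℝ) (p q : Xr r) :
    (AX (Xr r) + diagonal (WX V1 V2 z0) - t • (1 : Matrix (Xr r) (Xr r) ℝ))⁻¹ p q =
      (M2 V1 V2 (z0 + t))⁻¹ (eX r p) (eX r q) := by
  rw [box_eq, Matrix.inv_submatrix_equiv]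
  rfl

lemma card_Xr (r : ℕ) : ((Xr r).card : ℝ) = (2 * r + 1) ^ 2 := by
  unfold Xr
  rw [Finset.card_product]
  push_cast
  rw [card_box1]
  ring

end P365SH
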