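import Vale.Agent.P365.SH.L1e
import Vale.Agent.P365.C937.Sep

/-!
P365 T1, the shield, part 6: choice of a separable potential with exponentially decaying Green
function for most energies of a window.
-/

open MeasureTheory Set Matrix
open scoped ENNReal

namespace P365SH

open Vale.Agent.P365.C937

/-- The separable matrix. -/
noncomputable def M2 {n : ℕ} (V1 V2 : Fin n → ℝ) (z : ℝ) :
    Matrix (Fin n × Fin n) (Fin n × Fin n) ℝ :=
  sepM (M1 0 V1) (M1 0 V2) - z • (1 : Matrix (Fin n × Fin n) (Fin n × Fin n) ℝ)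

lemma M1_sub {n : ℕ} (V : Fin n → ℝ) (z : ℝ) :
    M1 0 V - z • (1 : Matrix (Fin n) (Fin n) ℝ) = M1 z V := by
  unfold M1
  ext i j
  by_cases h : i = j
  · subst h; simp; ring
  · simp [h]

lemma M1_herm {n : ℕ} (V : Fin n → ℝ) : (M1 0 V).IsHermitian := by
  rw [Matrix.IsHermitian, conjTranspose_eq_transpose_of_trivial, M1_transpose]

lemma M2_swap_eq {n : ℕ} (V1 V2 : Fin n → ℝ) (z : ℝ) :
    M2 V1 V2 z = (M2 V2 V1 z).submatrix Prod.swap Prod.swap := by
  ext p q
  simp only [M2, sepM, Matrix.sub_apply, Matrix.submatrix_apply, Matrix.smul_apply,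
    Matrix.one_apply, Prod.fst_swap, Prod.snd_swap, smul_eq_mul]
  have : (p.swap = q.swap) ↔ (p = q) := by
    constructor
    · intro h; exact Prod.swap_injective h
    · intro h; rw [h]
  simp only [this]
  ring

lemma M2_inv_swap {n : ℕ} (V1 V2 : Fin n → ℝ) (z : ℝ) (p q : Fin n × Fin n) :
    (M2 V1 V2 z)⁻¹ p q = (M2 V2 V1 z)⁻¹ p.swap q.swap := by
  have h : M2 V1 V2 z = (M2 V2 V1 z).submatrix (Equiv.prodComm (Fin n) (Fin n))
      (Equiv.prodComm (Fin n) (Fin n)) := by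
    rw [M2_swap_eq]; rfl
  rw [h, Matrix.inv_submatrix_equiv]
  rfl

/-- The eigenvalues of the first factor. -/
noncomputable def eg {n : ℕ} (V1 : Fin n → ℝ) (j : Fin n) : ℝ := (M1_herm V1).eigenvalues j

lemma decay2 {n : ℕ} (V1 V2 : Fin n → ℝ) (z : ℝ) (w : Fin n → Fin n → ℝ)
    (hdet : ∀ j, (M1 (z - eg V1 j) V2).det ≠ 0)
    (hb : ∀ j x y, |(M1 (z - eg V1 j) V2)⁻¹ x y| ≤ w x y) (p q : Fin n × Fin n) :
    |(M2 V1 V2 z)⁻¹ p q| ≤ n * w p.2 q.2 := by
  have h := sep_abs_le (M1_herm V1) (H₂ := M1 0 V2) (E := z)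
    (fun j => by
      rw [M1_sub]
      exact (Matrix.isUnit_iff_isUnit_det _).2 (isUnit_iff_ne_zero.2 (hdet j))) p q
  refine h.trans ?_
  calc (∑ j, |(M1 0 V2 - (z - (M1_herm V1).eigenvalues j) • (1 : Matrix (Fin n) (Fin n) ℝ))⁻¹
        p.2 q.2|) ≤ ∑ _j : Fin n, w p.2 q.2 := by
        apply Finset.sum_le_sum
        intro j _
        rw [M1_sub]
        exact hb j p.2 q.2
    _ = n * w p.2 q.2 := by rw [Finset.sum_const]; simp

/-! ### Measurability -/

lemma continuous_M1_pair {n : ℕ} :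
    Continuous (fun p : ℝ × (Fin n → ℝ) => M1 p.1 p.2) := by
  unfold M1
  apply Continuous.add _ continuous_const
  apply Continuous.matrix_diagonal
  apply continuous_pi
  intro i
  exact ((continuous_apply i).comp continuous_snd).sub continuous_fst

lemma meas_inv_of_cont {α ι : Type*} [TopologicalSpace α] [MeasurableSpace α]
    [OpensMeasurableSpace α] [Fintype ι] [DecidableEq ι] {M : α → Matrix ι ι ℝ}
    (hM : Continuous M) (x y : ι) : Measurable (fun a => (M a)⁻¹ x y) := by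
  have h1 : Measurable (fun a => (M a).det) := hM.matrix_det.measurable
  have h2 : Measurable (fun a => (M a).adjugate x y) :=
    (hM.matrix_adjugate.matrix_elem x y).measurable
  have e : (fun a => (M a)⁻¹ x y) = fun a => ((M a).det)⁻¹ * (M a).adjugate x y := by
    funext a
    rw [Matrix.inv_def, Ring.inverse_eq_inv', Matrix.smul_apply, smul_eq_mul]
  rw [e]
  exact h1.inv.mul h2

lemma continuous_M2 {n : ℕ} :
    Continuous (fun p : ((Fin n → ℝ) × (Fin n → ℝ)) × ℝ => M2 p.1.1 p.1.2 p.2) := by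
  have c1 : Continuous (fun V : Fin n → ℝ => M1 0 V) :=
    continuous_M1_pair.comp (continuous_const.prodMk continuous_id)
  apply continuous_matrix
  intro i j
  simp only [M2, sepM, Matrix.sub_apply, Matrix.smul_apply, smul_eq_mul]
  apply Continuous.sub
  · apply Continuous.add
    · apply Continuous.mul _ continuous_const
      exact (c1.matrix_elem i.1 j.1).comp (continuous_fst.comp continuous_fst)
    · apply Continuous.mul continuous_const
      exact (c1.matrix_elem i.2 j.2).comp (continuous_snd.comp continuous_fst)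
  · exact continuous_snd.mul continuous_const

/-! ### The exceptional set of shifts -/

/-- The exceptional set of shifts. -/
def BS {n : ℕ} (z0 : ℝ) (w : Fin n → Fin n → ℝ) (V1 V2 : Fin n → ℝ) : Set ℝ :=
  {t | ∃ p q : Fin n × Fin n, n * w p.2 q.2 < |(M2 V1 V2 (z0 + t))⁻¹ p q|}

/-- The size of the exceptional set. -/
noncomputable def fS {n : ℕ} (T z0 : ℝ) (w : Fin n → Fin n → ℝ) (V1 V2 : Fin n → ℝ) : ℝ≥0∞ :=
  ∫⁻ t in Icc (-T) T, (BS z0 w V1 V2).indicator 1 t

lemma meas_BS {n : ℕ} (z0 : ℝ) (w : Fin n → Fin n → ℝ) :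
    MeasurableSet {p : ((Fin n → ℝ) × (Fin n → ℝ)) × ℝ | p.2 ∈ BS z0 w p.1.1 p.1.2} := by
  have : {p : ((Fin n → ℝ) × (Fin n → ℝ)) × ℝ | p.2 ∈ BS z0 w p.1.1 p.1.2} =
      ⋃ x : Fin n × Fin n, ⋃ y : Fin n × Fin n,
        {p : ((Fin n → ℝ) × (Fin n → ℝ)) × ℝ |
          n * w x.2 y.2 < |(M2 p.1.1 p.1.2 (z0 + p.2))⁻¹ x y|} := by
    ext p
    simp [BS]
  rw [this]
  apply MeasurableSet.iUnion; intro x
  apply MeasurableSet.iUnion; intro y
  apply measurableSet_lt measurable_const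
  apply Measurable.abs
  have hc : Continuous (fun p : ((Fin n → ℝ) × (Fin n → ℝ)) × ℝ =>
      M2 p.1.1 p.1.2 (z0 + p.2)) :=
    continuous_M2.comp (continuous_fst.prodMk (continuous_const.add continuous_snd))
  exact meas_inv_of_cont hc x y

lemma meas_fS {n : ℕ} (T z0 : ℝ) (w : Fin n → Fin n → ℝ) :
    Measurable (fun p : (Fin n → ℝ) × (Fin n → ℝ) => fS T z0 w p.1 p.2) := by
  unfold fS
  have h : Measurable (fun p : ((Fin n → ℝ) × (Fin n → ℝ)) × ℝ =>
      (BS z0 w p.1.1 p.1.2).indicator (1 : ℝ → ℝ≥0∞) p.2) := by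
    have e : (fun p : ((Fin n → ℝ) × (Fin n → ℝ)) × ℝ =>
        (BS z0 w p.1.1 p.1.2).indicator (1 : ℝ → ℝ≥0∞) p.2) =
        {p : ((Fin n → ℝ) × (Fin n → ℝ)) × ℝ | p.2 ∈ BS z0 w p.1.1 p.1.2}.indicator 1 := by
      funext p
      by_cases hp : p.2 ∈ BS z0 w p.1.1 p.1.2
      · rw [indicator_of_mem hp, indicator_of_mem (by exact hp)]; rfl
      · rw [indicator_of_notMem hp, indicator_of_notMem (by exact hp)]
    rw [e]
    exact measurable_one.indicator (meas_BS z0 w)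
  exact h.lintegral_prod_right'

/-- The singular shifts are finitely many. -/
lemma sing_finite {n : ℕ} (V : Fin n → ℝ) (s : ℝ) :
    {t : ℝ | (M1 (t + s) V).det = 0}.Finite := by
  have h1 : {t : ℝ | (M1 (t + s) V).det = 0} ⊆
      (fun x : ℝ => x - s) '' ((M1 0 V).charpoly.roots.toFinset : Set ℝ) := by
    intro t ht
    simp only [mem_ofPred_eq] at ht
    refine ⟨t + s, ?_, by ring⟩
    simp only [Finset.mem_coe, Multiset.mem_toFinset]
    rw [Polynomial.mem_roots (Matrix.charpoly_monic _).ne_zero, Polynomial.IsRoot.def,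
      Matrix.eval_charpoly]
    have e : Matrix.scalar (Fin n) (t + s) - M1 0 V = - M1 (t + s) V := by
      rw [← M1_sub V (t + s), neg_sub]
      congr 1
      ext i j
      simp [Matrix.scalar_apply, Matrix.diagonal_apply, Matrix.one_apply]
    rw [e, Matrix.det_neg, ht, mul_zero]
  exact ((Finset.finite_toSet _).image _).subset h1

/-- Markov for one pair of sites. -/
lemma markov1 {a C θ : ℝ} (hθ : 0 < θ)
    (hfm : ∀ (n : ℕ) (z : ℝ) (x b : Fin n),
      (∫⁻ V : Fin n → ℝ, (ENNReal.ofReal |(M1 z V)⁻¹ x b|) ^ (1 / 4 : ℝ)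
        ∂(Measure.pi fun _ => unif a)) ≤ ENNReal.ofReal (C * θ ^ (dd x.val b.val)))
    {L : ℝ} (hL : 0 < L) {n : ℕ} (z : ℝ) (x b : Fin n) :
    (∫⁻ V : Fin n → ℝ, {V : Fin n → ℝ | L ^ 4 * (θ ^ 4) ^ (dd x.val b.val) <
      |(M1 z V)⁻¹ x b|}.indicator (1 : (Fin n → ℝ) → ℝ≥0∞) V ∂(Measure.pi fun _ => unif a)) ≤
      ENNReal.ofReal (C / L) := by
  set d := dd x.val b.val with hd
  set μ : Measure (Fin n → ℝ) := Measure.pi fun _ => unif a with hμ
  have hms : MeasurableSet {V : Fin n → ℝ | L ^ 4 * (θ ^ 4) ^ d < |(M1 z V)⁻¹ x b|} :=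
    measurableSet_lt measurable_const (measurable_G1 z x b).abs
  rw [lintegral_indicator_one hms]
  set f : (Fin n → ℝ) → ℝ≥0∞ := fun V => (ENNReal.ofReal |(M1 z V)⁻¹ x b|) ^ (1 / 4 : ℝ) with hf
  have hfm1 : Measurable f := ((measurable_G1 z x b).abs.ennreal_ofReal).pow_const _
  have hsub : {V : Fin n → ℝ | L ^ 4 * (θ ^ 4) ^ d < |(M1 z V)⁻¹ x b|} ⊆
      {V | ENNReal.ofReal (L * θ ^ d) ≤ f V} := by
    intro V hV
    simp only [mem_ofPred_eq] at hV ⊢
    simp only [hf]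
    have e : ENNReal.ofReal (L * θ ^ d) =
        (ENNReal.ofReal (L ^ 4 * (θ ^ 4) ^ d)) ^ (1 / 4 : ℝ) := by
      rw [ENNReal.ofReal_rpow_of_nonneg (by positivity) (by norm_num)]
      congr 1
      have : L ^ 4 * (θ ^ 4) ^ d = (L * θ ^ d) ^ 4 := by ring
      rw [this, show (1 / 4 : ℝ) = ((4 : ℕ) : ℝ)⁻¹ by norm_num,
        Real.pow_rpow_inv_natCast (by positivity) (by norm_num)]
    rw [e]
    apply ENNReal.rpow_le_rpow _ (by norm_num)
    exact ENNReal.ofReal_le_ofReal hV.le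
  have hmk := mul_meas_ge_le_lintegral (μ := μ) hfm1 (ENNReal.ofReal (L * θ ^ d))
  have h1 : ENNReal.ofReal (L * θ ^ d) *
      μ {V : Fin n → ℝ | L ^ 4 * (θ ^ 4) ^ d < |(M1 z V)⁻¹ x b|} ≤
      ENNReal.ofReal (L * θ ^ d) * ENNReal.ofReal (C / L) := by
    calc _ ≤ ENNReal.ofReal (L * θ ^ d) * μ {V | ENNReal.ofReal (L * θ ^ d) ≤ f V} := by
          gcongr
      _ ≤ ∫⁻ V, f V ∂μ := hmk
      _ ≤ ENNReal.ofReal (C * θ ^ d) := hfm n z x b
      _ = _ := by
          rw [← ENNReal.ofReal_mul (by positivity)]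
          congr 1
          field_simp
  refine (ENNReal.mul_le_mul_iff_right ?_ ENNReal.ofReal_ne_top).1 h1
  simp only [ne_eq, ENNReal.ofReal_eq_zero, not_le]
  positivity

/-- The weight. -/
noncomputable def wt {n : ℕ} (L θ : ℝ) (x b : Fin n) : ℝ := L ^ 4 * (θ ^ 4) ^ (dd x.val b.val)

/-- Average size of the exceptional set, the first factor fixed. -/
lemma avg_fS {a C θ : ℝ} (ha : 0 < a) (hθ : 0 < θ)
    (hfm : ∀ (n : ℕ) (z : ℝ) (x b : Fin n),
      (∫⁻ V : Fin n → ℝ, (ENNReal.ofReal |(M1 z V)⁻¹ x b|) ^ (1 / 4 : ℝ)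
        ∂(Measure.pi fun _ => unif a)) ≤ ENNReal.ofReal (C * θ ^ (dd x.val b.val)))
    {L T : ℝ} (hL : 0 < L) (z0 : ℝ) {n : ℕ} (V1 : Fin n → ℝ) :
    (∫⁻ V2 : Fin n → ℝ, fS T z0 (wt L θ) V1 V2 ∂(Measure.pi fun _ => unif a)) ≤
      ENNReal.ofReal (2 * T) * (n ^ 3 * ENNReal.ofReal (C / L)) := by
  have hprob := unif_prob ha
  set μ : Measure (Fin n → ℝ) := Measure.pi fun _ => unif a with hμ
  let S : Fin n → Fin n → Fin n → ℝ → Set (Fin n → ℝ) := fun j x y t =>
    {V | wt L θ x y < |(M1 (z0 + t - eg V1 j) V)⁻¹ x y|}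
  have hmS : ∀ j x y, Measurable (fun p : (Fin n → ℝ) × ℝ =>
      (S j x y p.2).indicator (1 : (Fin n → ℝ) → ℝ≥0∞) p.1) := by
    intro j x y
    have hc : Continuous (fun p : (Fin n → ℝ) × ℝ => M1 (z0 + p.2 - eg V1 j) p.1) :=
      continuous_M1_pair.comp (((continuous_const.add continuous_snd).sub
        continuous_const).prodMk continuous_fst)
    have hs : MeasurableSet {p : (Fin n → ℝ) × ℝ |
        wt L θ x y < |(M1 (z0 + p.2 - eg V1 j) p.1)⁻¹ x y|} :=
      measurableSet_lt measurable_const (meas_inv_of_cont hc x y).abs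
    have e : (fun p : (Fin n → ℝ) × ℝ => (S j x y p.2).indicator (1 : (Fin n → ℝ) → ℝ≥0∞) p.1) =
        {p : (Fin n → ℝ) × ℝ |
          wt L θ x y < |(M1 (z0 + p.2 - eg V1 j) p.1)⁻¹ x y|}.indicator 1 := by
      funext p
      by_cases hp : wt L θ x y < |(M1 (z0 + p.2 - eg V1 j) p.1)⁻¹ x y|
      · rw [indicator_of_mem (by exact hp), indicator_of_mem (by exact hp)]; rfl
      · rw [indicator_of_notMem (by exact hp), indicator_of_notMem (by exact hp)]
    rw [e]
    exact measurable_one.indicator hs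
  have hmS1 : ∀ j x y t, Measurable (fun V : Fin n → ℝ =>
      (S j x y t).indicator (1 : (Fin n → ℝ) → ℝ≥0∞) V) := by
    intro j x y t
    have hs : MeasurableSet (S j x y t) :=
      measurableSet_lt measurable_const (measurable_G1 (z0 + t - eg V1 j) x y).abs
    exact measurable_one.indicator hs
  have hint : ∀ t, (∫⁻ V2 : Fin n → ℝ, ∑ j, ∑ x, ∑ y,
        (S j x y t).indicator (1 : (Fin n → ℝ) → ℝ≥0∞) V2 ∂μ) =
        ∑ j, ∑ x, ∑ y, ∫⁻ V2 : Fin n → ℝ, (S j x y t).indicator (1 : (Fin n → ℝ) → ℝ≥0∞) V2 ∂μ := by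
    intro t
    rw [lintegral_finsetSum]
    · apply Finset.sum_congr rfl; intro j _
      rw [lintegral_finsetSum]
      · apply Finset.sum_congr rfl; intro x _
        rw [lintegral_finsetSum]
        intro y _
        exact hmS1 j x y t
      · intro x _
        apply Finset.measurable_sum; intro y _
        exact hmS1 j x y t
    · intro j _
      apply Finset.measurable_sum; intro x _
      apply Finset.measurable_sum; intro y _
      exact hmS1 j x y t
  have hmsum : Measurable (fun p : (Fin n → ℝ) × ℝ => ∑ j, ∑ x, ∑ y,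
      (S j x y p.2).indicator (1 : (Fin n → ℝ) → ℝ≥0∞) p.1) := by
    apply Finset.measurable_sum; intro j _
    apply Finset.measurable_sum; intro x _
    apply Finset.measurable_sum; intro y _
    exact hmS j x y
  have step1 : ∀ V2 : Fin n → ℝ, fS T z0 (wt L θ) V1 V2 ≤
      ∫⁻ t in Icc (-T) T, ∑ j, ∑ x, ∑ y,
        (S j x y t).indicator (1 : (Fin n → ℝ) → ℝ≥0∞) V2 := by
    intro V2
    unfold fS
    apply lintegral_mono_ae
    apply ae_restrict_of_ae
    have hfin : (⋃ j : Fin n, {t : ℝ | (M1 (t + (z0 - eg V1 j)) V2).det = 0}).Finite :=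
      Set.finite_iUnion fun j => sing_finite V2 _
    have hnull : ∀ᵐ t : ℝ ∂volume, t ∉ (⋃ j : Fin n,
        {t : ℝ | (M1 (t + (z0 - eg V1 j)) V2).det = 0}) := by
      rw [ae_iff]
      simp only [not_not]
      exact hfin.measure_zero volume
    filter_upwards [hnull] with t ht
    by_cases hB : t ∈ BS z0 (wt L θ) V1 V2
    · rw [indicator_of_mem hB]
      obtain ⟨p, q, hpq⟩ := hB
      by_contra hcon
      push Not at hcon
      have hsmall : ∀ j x y, |(M1 (z0 + t - eg V1 j) V2)⁻¹ x y| ≤ wt L θ x y := by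
        intro j x y
        by_contra hlt
        push Not at hlt
        apply absurd hcon
        push Not
        have hmem : V2 ∈ S j x y t := hlt
        calc (1 : ℝ → ℝ≥0∞) t = (S j x y t).indicator (1 : (Fin n → ℝ) → ℝ≥0∞) V2 := by
              rw [indicator_of_mem hmem]; rfl
          _ ≤ ∑ y, (S j x y t).indicator (1 : (Fin n → ℝ) → ℝ≥0∞) V2 :=
              Finset.single_le_sum (f := fun y => (S j x y t).indicator
                (1 : (Fin n → ℝ) → ℝ≥0∞) V2) (fun _ _ => zero_le) (Finset.mem_univ y)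
          _ ≤ ∑ x, ∑ y, (S j x y t).indicator (1 : (Fin n → ℝ) → ℝ≥0∞) V2 :=
              Finset.single_le_sum (f := fun x => ∑ y, (S j x y t).indicator
                (1 : (Fin n → ℝ) → ℝ≥0∞) V2) (fun _ _ => zero_le) (Finset.mem_univ x)
          _ ≤ _ :=
              Finset.single_le_sum (f := fun j => ∑ x, ∑ y, (S j x y t).indicator
                (1 : (Fin n → ℝ) → ℝ≥0∞) V2) (fun _ _ => zero_le) (Finset.mem_univ j)
      have := decay2 V1 V2 (z0 + t) (wt L θ) (by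
        intro j hdet
        apply ht
        rw [mem_iUnion]
        refine ⟨j, ?_⟩
        simp only [mem_ofPred_eq]
        rw [← hdet]
        congr 2
        ring) hsmall p q
      linarith
    · rw [indicator_of_notMem hB]
      exact zero_le
  calc (∫⁻ V2 : Fin n → ℝ, fS T z0 (wt L θ) V1 V2 ∂μ)
      ≤ ∫⁻ V2 : Fin n → ℝ, (∫⁻ t in Icc (-T) T, ∑ j, ∑ x, ∑ y,
        (S j x y t).indicator (1 : (Fin n → ℝ) → ℝ≥0∞) V2) ∂μ := lintegral_mono step1
    _ = ∫⁻ t in Icc (-T) T, (∫⁻ V2 : Fin n → ℝ, ∑ j, ∑ x, ∑ y,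
        (S j x y t).indicator (1 : (Fin n → ℝ) → ℝ≥0∞) V2 ∂μ) := by
        rw [lintegral_lintegral_swap]
        exact hmsum.aemeasurable
    _ ≤ ∫⁻ _t in Icc (-T) T, ∑ _j : Fin n, ∑ _x : Fin n, ∑ _y : Fin n, ENNReal.ofReal (C / L) := by
        apply lintegral_mono
        intro t
        simp only
        rw [hint t]
        apply Finset.sum_le_sum; intro j _
        apply Finset.sum_le_sum; intro x _
        apply Finset.sum_le_sum; intro y _
        exact markov1 hθ hfm hL (z0 + t - eg V1 j) x y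
    _ = _ := by
        rw [lintegral_const, Measure.restrict_apply_univ, Real.volume_Icc, mul_comm]
        congr 1
        · congr 1; ring
        · simp only [Finset.sum_const, Finset.card_univ, Fintype.card_fin, nsmul_eq_mul]
          ring

lemma meas_BS1 {n : ℕ} (z0 : ℝ) (w : Fin n → Fin n → ℝ) (V1 V2 : Fin n → ℝ) :
    MeasurableSet (BS z0 w V1 V2) := by
  have h : Measurable (fun t : ℝ => (((V1, V2) : (Fin n → ℝ) × (Fin n → ℝ)), t)) :=
    measurable_const.prodMk measurable_id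
  exact h (meas_BS z0 w)

lemma fS_eq {n : ℕ} (T z0 : ℝ) (w : Fin n → Fin n → ℝ) (V1 V2 : Fin n → ℝ) :
    volume (BS z0 w V1 V2 ∩ Icc (-T) T) = fS T z0 w V1 V2 := by
  unfold fS
  rw [lintegral_indicator_one (meas_BS1 z0 w V1 V2), Measure.restrict_apply (meas_BS1 z0 w V1 V2)]

lemma ae_box {n : ℕ} {a : ℝ} (ha : 0 < a) :
    ∀ᵐ V : Fin n → ℝ ∂(Measure.pi fun _ => unif a), ∀ i, |V i| ≤ a := by
  have hprob := unif_prob ha
  rw [ae_all_iff]
  intro i
  have h1 : ∀ᵐ t ∂(unif a), |t| ≤ a := by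
    unfold unif
    apply Measure.ae_smul_measure
    filter_upwards [ae_restrict_mem measurableSet_Icc] with t ht
    rw [abs_le]
    exact ht
  exact (Measure.tendsto_eval_ae_ae (μ := fun _ : Fin n => unif a) (i := i)).eventually h1

/-- Choice of a pair by averaging. -/
lemma choose_pair {α : Type*} [MeasurableSpace α] (μ : Measure α) [IsProbabilityMeasure μ]
    {F : α × α → ℝ≥0∞} (hF : Measurable F) {ε : ℝ≥0∞} (h : ∀ x, (∫⁻ y, F (x, y) ∂μ) ≤ ε)
    {P : α → Prop} (hP : ∀ᵐ x ∂μ, P x) :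
    ∃ x y, P x ∧ P y ∧ F (x, y) + F (y, x) ≤ ε + ε := by
  have hms : Measurable (fun p : α × α => F p.swap) := hF.comp measurable_swap
  have i1 : (∫⁻ p, F p ∂(μ.prod μ)) ≤ ε := by
    rw [lintegral_prod _ hF.aemeasurable]
    calc _ ≤ ∫⁻ _x : α, ε ∂μ := lintegral_mono h
      _ = ε := by simp
  have i2 : (∫⁻ p, F p.swap ∂(μ.prod μ)) = ∫⁻ p, F p ∂(μ.prod μ) := lintegral_prod_swap F
  have hnull : ∀ᵐ p : α × α ∂(μ.prod μ), P p.1 ∧ P p.2 :=
    (Measure.quasiMeasurePreserving_fst.ae hP).and (Measure.quasiMeasurePreserving_snd.ae hP)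
  obtain ⟨p, hp, hpl⟩ := exists_notMem_null_le_lintegral (μ := μ.prod μ)
    (f := fun p : α × α => F p + F p.swap) (hF.add hms).aemeasurable (ae_iff.1 hnull)
  simp only [mem_ofPred_eq, not_not] at hp
  refine ⟨p.1, p.2, hp.1, hp.2, ?_⟩
  refine hpl.trans ?_
  rw [lintegral_add_left hF, i2]
  exact add_le_add i1 i1

lemma const_calc (T C L : ℝ) (hT : 0 < T) (hC : 0 < C) (hL : 0 < L) (n : ℕ) :
    ENNReal.ofReal (2 * T) * ((n : ℝ≥0∞) ^ 3 * ENNReal.ofReal (C / L)) +
        ENNReal.ofReal (2 * T) * ((n : ℝ≥0∞) ^ 3 * ENNReal.ofReal (C / L)) =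
      ENNReal.ofReal (4 * T * n ^ 3 * (C / L)) := by
  rw [← ENNReal.ofReal_natCast, ← ENNReal.ofReal_pow (by positivity),
    ← ENNReal.ofReal_mul (by positivity), ← ENNReal.ofReal_mul (by positivity),
    ← ENNReal.ofReal_add (by positivity) (by positivity)]
  congr 1
  ring

/-- **The choice of the separable potential.** -/
theorem choice {a : ℝ} (ha : 0 < a) : ∃ C θ : ℝ, 0 < C ∧ 0 < θ ∧ θ < 1 ∧
    ∀ (n : ℕ) (T z0 L : ℝ), 0 < T → 0 < L → ∃ V1 V2 : Fin n → ℝ,
      (∀ i, |V1 i| ≤ a) ∧ (∀ i, |V2 i| ≤ a) ∧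
      volume ((BS z0 (wt L θ) V1 V2 ∪ BS z0 (wt L θ) V2 V1) ∩ Icc (-T) T) ≤
        ENNReal.ofReal (4 * T * n ^ 3 * (C / L)) := by
  obtain ⟨C, θ, C0, θ0, θ1, hfm⟩ := frac_moment_1d ha
  refine ⟨C, θ, C0, θ0, θ1, ?_⟩
  intro n T z0 L hT hL
  have hprob := unif_prob ha
  obtain ⟨V1, V2, h1, h2, h3⟩ := choose_pair (Measure.pi fun _ : Fin n => unif a)
    (F := fun p => fS T z0 (wt L θ) p.1 p.2) (meas_fS T z0 (wt L θ))
    (ε := ENNReal.ofReal (2 * T) * (n ^ 3 * ENNReal.ofReal (C / L)))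
    (fun V1 => avg_fS ha θ0 hfm hL z0 V1) (ae_box ha)
  refine ⟨V1, V2, h1, h2, ?_⟩
  rw [union_inter_distrib_right]
  refine (measure_union_le _ _).trans ?_
  rw [fS_eq, fS_eq, ← const_calc T C L hT C0 hL n]
  exact h3

/-- Outside the exceptional set the Green function decays in both directions. -/
lemma good_decay {n : ℕ} {L θ z0 t : ℝ} {V1 V2 : Fin n → ℝ}
    (h1 : t ∉ BS z0 (wt L θ) V1 V2) (h2 : t ∉ BS z0 (wt L θ) V2 V1) (p q : Fin n × Fin n) :
    |(M2 V1 V2 (z0 + t))⁻¹ p q| ≤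
      n * L ^ 4 * (θ ^ 4) ^ (max (dd p.1.val q.1.val) (dd p.2.val q.2.val)) := by
  unfold BS at h1 h2
  simp only [mem_ofPred_eq, not_exists, not_lt] at h1 h2
  have a1 := h1 p q
  have a2 := h2 p.swap q.swap
  rw [← M2_inv_swap] at a2
  simp only [Prod.snd_swap] at a2
  unfold wt at a1 a2
  rcases le_total (dd p.1.val q.1.val) (dd p.2.val q.2.val) with h | h
  · rw [max_eq_right h]
    calc _ ≤ _ := a1
      _ = _ := by ring
  · rw [max_eq_left h]
    calc _ ≤ _ := a2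
      _ = _ := by ring

end P365SH
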