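import Vale.Agent.P365.SH.Shield

/-!
P365 T1, the shield: existence of the pattern (core), and the final theorem with windows.
-/

open MeasureTheory Set Matrix
open scoped ENNReal

namespace P365SH

open Vale.Agent.P365.C937

/-- The clamped energy. -/
lemma clamp_energy {lam E : ℝ} (hlam : 0 < lam) (hE : |E| < 4 + lam) :
    ∃ z0 : ℝ, |z0| ≤ 4 ∧ |E - z0| < lam := by
  rw [abs_lt] at hE
  refine ⟨max (-4) (min 4 E), ?_, ?_⟩
  · rw [abs_le]
    constructor
    · exact le_max_left _ _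
    · exact max_le (by norm_num) (min_le_left _ _)
  · rw [abs_lt]
    rcases le_total E 4 with h | h
    · rw [min_eq_right h]
      rcases le_total (-4) E with h' | h'
      · rw [max_eq_right h']; constructor <;> linarith
      · rw [max_eq_left h']; constructor <;> linarith
    · rw [min_eq_left h, max_eq_right (by norm_num)]
      constructor <;> linarith

/-- The pattern as a function on the lattice. -/
noncomputable def pat {r : ℕ} (V1 V2 : Fin (2 * r + 1) → ℝ) (z0 t E : ℝ) (x : ℤ × ℤ) : ℝ :=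
  if h : x ∈ Xr r then WX V1 V2 z0 ⟨x, h⟩ - t + E else 0

lemma pat_HX {r : ℕ} (V1 V2 : Fin (2 * r + 1) → ℝ) (z0 t E : ℝ) :
    HX r (pat V1 V2 z0 t E) E =
      AX (Xr r) + diagonal (WX V1 V2 z0) - t • (1 : Matrix (Xr r) (Xr r) ℝ) := by
  unfold HX
  rw [add_sub_assoc]
  congr 1
  rw [Matrix.smul_one_eq_diagonal, Matrix.diagonal_sub]
  congr 1
  funext x
  unfold pat
  rw [dif_pos x.2]
  ring

lemma pat_bound {r : ℕ} {V1 V2 : Fin (2 * r + 1) → ℝ} {z0 t E a T : ℝ} (ha : 0 ≤ a)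
    (h1 : ∀ i, |V1 i| ≤ a) (h2 : ∀ i, |V2 i| ≤ a) (ht : |t| ≤ T) (x : ℤ × ℤ) :
    |pat V1 V2 z0 t E x| ≤ |E - z0| + (2 * a + T) := by
  unfold pat
  split_ifs with h
  · unfold WX
    have e1 := h1 (eX r ⟨x, h⟩).1
    have e2 := h2 (eX r ⟨x, h⟩).2
    have : V1 (eX r ⟨x, h⟩).1 + V2 (eX r ⟨x, h⟩).2 - z0 - t + E =
        (E - z0) + (V1 (eX r ⟨x, h⟩).1 + V2 (eX r ⟨x, h⟩).2 - t) := by ring
    rw [this]
    refine (abs_add_le _ _).trans ?_
    gcongr
    refine (abs_sub _ _).trans ?_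
    have := abs_add_le (V1 (eX r ⟨x, h⟩).1) (V2 (eX r ⟨x, h⟩).2)
    linarith
  · rw [abs_zero]
    have := abs_nonneg (E - z0)
    have := (abs_nonneg t).trans ht
    linarith

/-- **Existence of the pattern.** -/
theorem shield_core {lam E : ℝ} (hlam : 0 < lam) (hE : |E| < 4 + lam) :
    ∃ (κ g v : ℝ) (R0 r0 : ℕ), 0 < κ ∧ κ < 1 ∧ 0 < g ∧ 0 ≤ v ∧ v + g = lam ∧
      ∀ r : ℕ, r0 ≤ r → ∃ (Vs : ℤ × ℤ → ℝ) (y : Xr r),
        |(y : ℤ × ℤ).1| < R0 ∧ |(y : ℤ × ℤ).2| < R0 ∧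
        (∀ x, |Vs x| ≤ v + 9 / 32 * g) ∧ IsUnit (HX r Vs E) ∧
        (∀ x b : Xr r, |(HX r Vs E)⁻¹ x b| ≤ (2 * (r : ℝ) + 1) ^ 41 * κ ^ dist8 x b) ∧
        16 / g ≤ |(HX r Vs E)⁻¹ y y| := by
  obtain ⟨z0, hz0, hv⟩ := clamp_energy hlam hE
  set v : ℝ := |E - z0| with hvdef
  set g : ℝ := lam - v with hg
  have hg0 : 0 < g := by rw [hg]; linarith
  obtain ⟨C, θ, C0, θ0, θ1, hch⟩ := choice (a := g / 64) (by positivity)
  obtain ⟨R1, hR1⟩ := exists_nat_gt (544 / g)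
  obtain ⟨N1, hN1⟩ := exists_nat_gt (96 * C)
  set R : ℕ := R1 + 1 with hR
  have hR1' : 1 ≤ R := by omega
  refine ⟨θ ^ 4, g, v, R, max R N1, by positivity, pow_lt_one₀ θ0.le θ1 (by norm_num), hg0,
    abs_nonneg _, by rw [hg]; ring, ?_⟩
  intro r hr
  have hrR : R ≤ r := (le_max_left _ _).trans hr
  have hrN : N1 ≤ r := (le_max_right _ _).trans hr
  set n : ℝ := 2 * (r : ℝ) + 1 with hn
  have hr1 : (1 : ℝ) ≤ r := by exact_mod_cast hR1'.trans hrR
  have hn1 : (1 : ℝ) ≤ n := by rw [hn]; linarith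
  have hn0 : (0 : ℝ) < n := by linarith
  have hnC : 96 * C < n := by
    have : (N1 : ℝ) ≤ r := by exact_mod_cast hrN
    rw [hn]; linarith
  have hncast : ((2 * r + 1 : ℕ) : ℝ) = n := by rw [hn]; push_cast; ring
  obtain ⟨V1, V2, hV1, hV2, hvol⟩ := hch (2 * r + 1) (g / 4) z0 (n ^ 10) (by positivity)
    (by positivity)
  rw [hncast] at hvol
  -- the trap
  set k : ℝ := Real.arccos (z0 / 4) with hk
  have hcos : 4 * Real.cos k = z0 := by
    rw [abs_le] at hz0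
    rw [hk, Real.cos_arccos (by linarith [hz0.1]) (by linarith [hz0.2])]
    ring
  have hX : box1 R ×ˢ box1 R ⊆ Xr r := by
    intro x hx
    have h1 := (mem_Xr (r := R)).1 hx
    rw [mem_Xr]
    have : (R : ℤ) ≤ r := by exact_mod_cast hrR
    omega
  obtain ⟨y, hy1, hy2, hmain⟩ := trap_box (X := Xr r) (R := R) hR1' hX (k := k) (η := g / 32)
    (ρ₀ := g / 16) (by positivity) (by
      have hRg : (17 : ℝ) / R ≤ g / 32 := by
        have hRpos : (0 : ℝ) < R := by exact_mod_cast hR1'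
        rw [div_le_iff₀ hRpos]
        have h1 : 544 / g < R := by
          refine hR1.trans ?_
          rw [hR]; push_cast; linarith
        rw [div_lt_iff₀ hg0] at h1
        nlinarith
      have h0 : (0 : ℝ) ≤ 17 / R := by positivity
      nlinarith [mul_self_nonneg (g / 32)]) (WX V1 V2 z0) (by
      intro x _ _
      unfold WX
      rw [hcos]
      have e1 := hV1 (eX r x).1
      have e2 := hV2 (eX r x).2
      have := abs_add_le (V1 (eX r x).1) (V2 (eX r x).2)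
      have e3 : V1 (eX r x).1 + V2 (eX r x).2 - z0 + z0 = V1 (eX r x).1 + V2 (eX r x).2 := by ring
      rw [e3]
      linarith)
  set ρ : ℝ := g / (96 * n ^ 6) with hρ
  have hρ0 : 0 < ρ := by positivity
  have hρg : ρ ≤ g / 8 := by
    rw [hρ]
    apply div_le_div_of_nonneg_left hg0.le (by norm_num)
    have : (1 : ℝ) ≤ n ^ 6 := one_le_pow₀ hn1
    linarith
  have hcard : ((Xr r).card : ℝ) = n ^ 2 := by rw [card_Xr]
  set Bad : Set ℝ := (BS z0 (wt (n ^ 10) θ) V1 V2 ∪ BS z0 (wt (n ^ 10) θ) V2 V1) ∩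
    Icc (-(g / 4)) (g / 4) with hBad
  obtain ⟨t, ht1, ht2, ht3, ht4⟩ := hmain ρ (16 / g) hρ0 (by positivity) (by
      rw [hcard, hρ]
      have e1 : (n ^ 2 + 1) * (2 * (16 / g) * (g / (96 * n ^ 6)) * (4 / 3 * (n ^ 2 * n ^ 2))) =
          (n ^ 2 + 1) * (4 / 9) / n ^ 2 := by
        field_simp
        ring
      rw [e1, div_le_one (by positivity)]
      have : (1 : ℝ) ≤ n ^ 2 := one_le_pow₀ hn1
      nlinarith) Bad (by
      refine lt_of_le_of_lt hvol ?_
      apply (ENNReal.ofReal_lt_ofReal_iff hρ0).2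
      rw [hρ, lt_div_iff₀ (by positivity)]
      have e2 : 4 * (g / 4) * n ^ 3 * (C / n ^ 10) * (96 * n ^ 6) = g * (96 * C) * (n ^ 9 / n ^ 10) := by
        ring
      have e3 : n ^ 9 / n ^ 10 = 1 / n := by
        field_simp
      rw [e2, e3, mul_one_div, div_lt_iff₀ hn0]
      exact mul_lt_mul_of_pos_left hnC hg0)
  have htT : |t| ≤ g / 4 := by linarith
  have htI : t ∈ Icc (-(g / 4)) (g / 4) := abs_le.1 htT
  have hb1 : t ∉ BS z0 (wt (n ^ 10) θ) V1 V2 := fun h => ht2 ⟨Or.inl h, htI⟩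
  have hb2 : t ∉ BS z0 (wt (n ^ 10) θ) V2 V1 := fun h => ht2 ⟨Or.inr h, htI⟩
  refine ⟨pat V1 V2 z0 t E, y, hy1, hy2, ?_, ?_, ?_, ?_⟩
  · intro x
    refine (pat_bound (by positivity) hV1 hV2 htT x).trans (le_of_eq ?_)
    rw [← hvdef]
    ring
  · rw [pat_HX]; exact ht3
  · intro x b
    rw [pat_HX, box_inv]
    have := good_decay hb1 hb2 (eX r x) (eX r b)
    rw [dist8_eq, hncast] at this
    refine this.trans (le_of_eq ?_)
    ring
  · rw [pat_HX]; exact ht4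

end P365SH
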