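import Vale.Agent.P365.SH.Core

/-!
P365 T1, the shield, windows around a good pattern (abstract constants).
-/

open MeasureTheory Set Matrix
open scoped ENNReal

namespace P365SH

open Vale.Agent.P365.C937

lemma card_sub_le {r : ℕ} (y : Xr r) :
    (Fintype.card {x : Xr r // x ≠ y} : ℝ) ≤ (2 * (r : ℝ) + 1) ^ 2 := by
  have h1 : Fintype.card {x : Xr r // x ≠ y} ≤ Fintype.card (Xr r) := Fintype.card_subtype_le _
  rw [Fintype.card_coe] at h1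
  calc (Fintype.card {x : Xr r // x ≠ y} : ℝ) ≤ ((Xr r).card : ℝ) := by exact_mod_cast h1
    _ = _ := card_Xr r

/-- The pattern is good: size, decay, resonance at `y`; `C0, C1, u` are the constants. -/
structure Good (r : ℕ) (E κ g v C0 C1 u : ℝ) (Vs : ℤ × ℤ → ℝ) (y : Xr r) : Prop where
  κ0 : 0 < κ
  κ1 : κ < 1
  g0 : 0 < g
  C00 : 0 < C0
  C10 : 0 < C1
  u0 : 0 ≤ u
  C01 : C0 + C0 ^ 2 / (16 / g) ≤ C1
  cd : (Fintype.card {x : Xr r // x ≠ y} : ℝ) * (C1 * u) ≤ 1 / 2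
  cdX : (Fintype.card (Xr r) : ℝ) * (C0 * u) ≤ 1 / 2
  cd2 : (Fintype.card {x : Xr r // x ≠ y} : ℝ) ^ 2 *
    ((Fintype.card {x : Xr r // x ≠ y} : ℝ) * (C1 * (u * (2 * C1)))) ≤ g / 16
  bound : ∀ x, |Vs x| ≤ v + 9 / 32 * g
  unit : IsUnit (HX r Vs E)
  decay : ∀ x b : Xr r, |(HX r Vs E)⁻¹ x b| ≤ C0 * κ ^ dist8 x b
  res : 16 / g ≤ |(HX r Vs E)⁻¹ y y|

/-- the weight -/
noncomputable def kw (κ : ℝ) (x b : ℤ × ℤ) : ℝ := κ ^ dist8 x b

lemma kw_pos {κ : ℝ} (h : 0 < κ) (x b : ℤ × ℤ) : 0 < kw κ x b := pow_pos h _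

lemma kw_le {κ : ℝ} (h : 0 < κ) (h1 : κ < 1) (x b : ℤ × ℤ) : kw κ x b ≤ 1 :=
  pow_le_one₀ h.le h1.le

lemma kw_mul {κ : ℝ} (h : 0 < κ) (h1 : κ < 1) (x z b : ℤ × ℤ) :
    kw κ x z * kw κ z b ≤ kw κ x b :=
  weight_mul h h1 x z b

section Windows

variable {r : ℕ} {E κ g v C0 C1 u : ℝ} {Vs : ℤ × ℤ → ℝ} {y : Xr r}

lemma Good.ne (h : Good r E κ g v C0 C1 u Vs y) : (HX r Vs E)⁻¹ y y ≠ 0 := by
  intro h0
  have h1 := h.res
  rw [h0, abs_zero] at h1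
  have : 0 < 16 / g := div_pos (by norm_num) h.g0
  linarith

lemma Good.rem_decay (h : Good r E κ g v C0 C1 u Vs y) (x b : {x : Xr r // x ≠ y}) :
    |(HXy r Vs E y)⁻¹ x b| ≤ C1 * kw κ (x : Xr r) (b : Xr r) := by
  have h1 := removed_decay h.unit (K := 16 / g) (div_pos (by norm_num) h.g0) h.res
    (w := fun x b : Xr r => kw κ x b) (fun x b => kw_pos h.κ0 _ _)
    (fun x z b => kw_mul h.κ0 h.κ1 _ _ _) (C₀ := C0) h.C00
    h.decay x b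
  exact h1.trans (mul_le_mul_of_nonneg_right h.C01 (kw_pos h.κ0 _ _).le)

lemma Good.unit_y (h : Good r E κ g v C0 C1 u Vs y) : IsUnit (HXy r Vs E y) :=
  (removed h.unit h.ne).2.1

lemma Good.win (h : Good r E κ g v C0 C1 u Vs y) (V : ℤ × ℤ → ℝ)
    (hV : ∀ x : Xr r, x ≠ y → |V x - Vs x| ≤ u) :
    IsUnit (HXy r V E y) ∧ ∀ x b : {x : Xr r // x ≠ y}, |(HXy r V E y)⁻¹ x b| ≤
      2 * C1 * kw κ (x : Xr r) (b : Xr r) := by
  have h1 := window h.unit_y (w := fun x b : {x : Xr r // x ≠ y} =>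
    kw κ (x : Xr r) (b : Xr r)) (fun x b => kw_pos h.κ0 _ _) (fun x b => kw_le h.κ0 h.κ1 _ _)
    (fun x z b => kw_mul h.κ0 h.κ1 _ _ _) (C₀ := C1)
    (u := u) h.C10 h.u0
    (fun x b => by rw [Real.norm_eq_abs]; exact h.rem_decay x b)
    (U := fun x => V (x : Xr r) - Vs (x : Xr r))
    (fun x => by rw [Real.norm_eq_abs]; exact hV x x.2)
    h.cd
  rw [← HXy_window] at h1
  refine ⟨h1.1, fun x b => ?_⟩
  have := h1.2 x b
  rw [Real.norm_eq_abs] at this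
  exact this

lemma Good.win_diff (h : Good r E κ g v C0 C1 u Vs y) (V : ℤ × ℤ → ℝ)
    (hV : ∀ x : Xr r, x ≠ y → |V x - Vs x| ≤ u)
    (x b : {x : Xr r // x ≠ y}) :
    |(HXy r V E y)⁻¹ x b - (HXy r Vs E y)⁻¹ x b| ≤
      (Fintype.card {x : Xr r // x ≠ y} : ℝ) * (C1 * (u * (2 * C1))) := by
  obtain ⟨hun, hbd⟩ := h.win V hV
  have hB1 : ∀ x b : {x : Xr r // x ≠ y}, |(HXy r Vs E y)⁻¹ x b| ≤ C1 := by
    intro x b
    refine (h.rem_decay x b).trans ?_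
    exact mul_le_of_le_one_right h.C10.le (kw_le h.κ0 h.κ1 _ _)
  rw [HXy_window V Vs E y] at hun hbd ⊢
  have hB2 : ∀ x b : {x : Xr r // x ≠ y}, |(HXy r Vs E y + diagonal
      (fun x : {x : Xr r // x ≠ y} => V (x : Xr r) - Vs (x : Xr r)))⁻¹ x b| ≤
        2 * C1 := by
    intro x b
    refine (hbd x b).trans ?_
    have : 0 ≤ 2 * C1 := by have := h.C10; linarith
    exact mul_le_of_le_one_right this (kw_le h.κ0 h.κ1 _ _)
  exact window_diff h.unit_y (C₀ := C1)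
    (u := u) h.C10 h.u0 hB1
    (U := fun x => V (x : Xr r) - Vs (x : Xr r))
    (fun x => hV x x.2) hun hB2 x b

lemma Good.sE0 (h : Good r E κ g v C0 C1 u Vs y) :
    |sE r Vs E y| ≤ v + 9 / 32 * g + g / 16 := by
  have h1 := sE_eq Vs E y h.unit h.ne
  have h2 : sE r Vs E y = Vs y - ((HX r Vs E)⁻¹ y y)⁻¹ := by rw [h1]; ring
  rw [h2]
  refine (abs_sub _ _).trans ?_
  have h3 : |((HX r Vs E)⁻¹ y y)⁻¹| ≤ g / 16 := by
    rw [abs_inv]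
    calc |(HX r Vs E)⁻¹ y y|⁻¹ ≤ (16 / g)⁻¹ := inv_anti₀ (div_pos (by norm_num) h.g0) h.res
      _ = g / 16 := by rw [inv_div]
  have := h.bound y
  linarith

lemma sE_diff (r : ℕ) (V Vs : ℤ × ℤ → ℝ) (E : ℝ) (y : Xr r) {e : ℝ}
    (hd : ∀ x b : {x : Xr r // x ≠ y}, |(HXy r V E y)⁻¹ x b - (HXy r Vs E y)⁻¹ x b| ≤ e) :
    |sE r V E y - sE r Vs E y| ≤ (Fintype.card {x : Xr r // x ≠ y} : ℝ) ^ 2 * e := by
  have hf := form_diff (G := (HXy r V E y)⁻¹) (G' := (HXy r Vs E y)⁻¹)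
    (l := fun x => AX (Xr r) y x) (m := fun x => AX (Xr r) x y)
    (fun x => AX_le _ _ _) (fun x => AX_le _ _ _) hd
  have hsd : sE r V E y - sE r Vs E y = (∑ x : {x : Xr r // x ≠ y}, ∑ x' : {x : Xr r // x ≠ y},
      AX (Xr r) y x * (HXy r V E y)⁻¹ x x' * AX (Xr r) x' y) -
      ∑ x : {x : Xr r // x ≠ y}, ∑ x' : {x : Xr r // x ≠ y},
      AX (Xr r) y x * (HXy r Vs E y)⁻¹ x x' * AX (Xr r) x' y := by
    unfold sE; ring
  rw [hsd]
  exact hf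

lemma Good.sE_win (h : Good r E κ g v C0 C1 u Vs y) (V : ℤ × ℤ → ℝ)
    (hV : ∀ x : Xr r, x ≠ y → |V x - Vs x| ≤ u) :
    |sE r V E y| ≤ v + g / 2 := by
  have h1 := sE_diff r V Vs E y (h.win_diff V hV)
  have h3 := h1.trans h.cd2
  have h4 := h.sE0
  have h5 : sE r V E y = sE r Vs E y + (sE r V E y - sE r Vs E y) := by ring
  rw [h5]
  refine (abs_add_le _ _).trans ?_
  have := h.g0
  linarith

lemma Good.full (h : Good r E κ g v C0 C1 u Vs y) (V : ℤ × ℤ → ℝ)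
    (hV : ∀ x : Xr r, |V x - Vs x| ≤ u) :
    IsUnit (HX r V E) ∧ ∀ x b : Xr r, |(HX r V E)⁻¹ x b| ≤
      2 * C0 * kw κ x b := by
  have h1 := window h.unit (w := fun x b : Xr r => kw κ x b)
    (fun x b => kw_pos h.κ0 _ _) (fun x b => kw_le h.κ0 h.κ1 _ _)
    (fun x z b => kw_mul h.κ0 h.κ1 _ _ _) (C₀ := C0)
    (u := u) h.C00 h.u0
    (fun x b => by rw [Real.norm_eq_abs]; exact h.decay x b)
    (U := fun x => V x - Vs x)
    (fun x => by rw [Real.norm_eq_abs]; exact hV x)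
    h.cdX
  rw [← HX_window] at h1
  refine ⟨h1.1, fun x b => ?_⟩
  have := h1.2 x b
  rw [Real.norm_eq_abs] at this
  exact this

end Windows

end P365SH
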