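import Mathlib

/-!
P365 T1, the shield, part 1: the two-step contraction of the one dimensional
transfer kernel on L^2, for the uniform law on [-a, a].
-/

open MeasureTheory Set
open scoped ENNReal

namespace P365SH

/-- Symmetrised truncated square difference. -/
noncomputable def dsq (x y : ℝ≥0∞) : ℝ≥0∞ := (x - y) ^ 2 + (y - x) ^ 2

lemma dsq_comm (x y : ℝ≥0∞) : dsq x y = dsq y x := by
  unfold dsq; rw [add_comm]

lemma dsq_self (x : ℝ≥0∞) : dsq x x = 0 := by
  simp [dsq]

lemma sq_add_sq_aux (x y : ℝ≥0∞) (h : x ≤ y) : x ^ 2 + y ^ 2 = 2 * (x * y) + dsq x y := by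
  have hy : x + (y - x) = y := add_tsub_cancel_of_le h
  have h0 : x - y = 0 := tsub_eq_zero_of_le h
  unfold dsq
  rw [h0]
  set d := y - x with hd
  rw [← hy]
  ring

lemma sq_add_sq (x y : ℝ≥0∞) : x ^ 2 + y ^ 2 = 2 * (x * y) + dsq x y := by
  rcases le_total x y with h | h
  · exact sq_add_sq_aux x y h
  · have := sq_add_sq_aux y x h
    rw [add_comm, this, dsq_comm, mul_comm y x]

lemma two_mul_le (x y : ℝ≥0∞) : 2 * (x * y) ≤ x ^ 2 + y ^ 2 := by
  rw [sq_add_sq]; exact le_self_add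

lemma add_sq_le' (x y : ℝ≥0∞) : (x + y) ^ 2 ≤ 2 * x ^ 2 + 2 * y ^ 2 := by
  calc (x + y) ^ 2 = x ^ 2 + y ^ 2 + 2 * (x * y) := by ring
    _ ≤ x ^ 2 + y ^ 2 + (x ^ 2 + y ^ 2) := by gcongr; exact two_mul_le x y
    _ = 2 * x ^ 2 + 2 * y ^ 2 := by ring

lemma dsq_triangle (x y z : ℝ≥0∞) : dsq x z ≤ 2 * dsq x y + 2 * dsq y z := by
  unfold dsq
  have h1 : x - z ≤ (x - y) + (y - z) := tsub_le_tsub_add_tsub
  have h2 : z - x ≤ (z - y) + (y - x) := tsub_le_tsub_add_tsub
  calc (x - z) ^ 2 + (z - x) ^ 2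
      ≤ ((x - y) + (y - z)) ^ 2 + ((z - y) + (y - x)) ^ 2 := by gcongr
    _ ≤ (2 * (x - y) ^ 2 + 2 * (y - z) ^ 2) + (2 * (z - y) ^ 2 + 2 * (y - x) ^ 2) :=
        add_le_add (add_sq_le' _ _) (add_sq_le' _ _)
    _ = _ := by ring

lemma sq_le_dsq (x y : ℝ≥0∞) : x ^ 2 ≤ 2 * y ^ 2 + 2 * dsq y x := by
  have h1 : x ≤ y + (x - y) := le_add_tsub
  calc x ^ 2 ≤ (y + (x - y)) ^ 2 := by gcongr
    _ ≤ 2 * y ^ 2 + 2 * (x - y) ^ 2 := add_sq_le' _ _
    _ ≤ _ := by
      gcongr
      unfold dsq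
      exact le_add_self

lemma measurable_dsq : Measurable (fun p : ℝ≥0∞ × ℝ≥0∞ => dsq p.1 p.2) := by
  unfold dsq
  exact ((measurable_fst.sub measurable_snd).pow_const 2).add
    ((measurable_snd.sub measurable_fst).pow_const 2)

/-- The squared L^2 norm. -/
noncomputable def sqn (h : ℝ → ℝ≥0∞) : ℝ≥0∞ := ∫⁻ x, h x ^ 2

/-- The squared L^2 modulus of continuity. -/
noncomputable def Nf (h : ℝ → ℝ≥0∞) (s : ℝ) : ℝ≥0∞ := ∫⁻ x, dsq (h (x + s)) (h x)

lemma Nf_zero (h : ℝ → ℝ≥0∞) : Nf h 0 = 0 := by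
  simp [Nf, dsq_self]

lemma meas_dsq_shift {h : ℝ → ℝ≥0∞} (hm : Measurable h) :
    Measurable (fun p : ℝ × ℝ => dsq (h (p.2 + p.1)) (h p.2)) := by
  have h1 : Measurable (fun p : ℝ × ℝ => (h (p.2 + p.1), h p.2)) :=
    (hm.comp (measurable_snd.add measurable_fst)).prodMk (hm.comp measurable_snd)
  exact measurable_dsq.comp h1

lemma measurable_Nf {h : ℝ → ℝ≥0∞} (hm : Measurable h) : Measurable (Nf h) := by
  unfold Nf
  exact (meas_dsq_shift hm).lintegral_prod_right'

lemma meas_dsq_one {h : ℝ → ℝ≥0∞} (hm : Measurable h) (s t : ℝ) :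
    Measurable (fun x : ℝ => dsq (h (x + s)) (h (x + t))) := by
  have h1 : Measurable (fun x : ℝ => (h (x + s), h (x + t))) :=
    (hm.comp (measurable_id.add_const s)).prodMk (hm.comp (measurable_id.add_const t))
  exact measurable_dsq.comp h1

lemma Nf_add {h : ℝ → ℝ≥0∞} (hm : Measurable h) (s t : ℝ) :
    Nf h (s + t) ≤ 2 * Nf h s + 2 * Nf h t := by
  have e1 : Nf h s = ∫⁻ x, dsq (h (x + t + s)) (h (x + t)) := by
    unfold Nf
    exact (lintegral_add_right_eq_self (fun x => dsq (h (x + s)) (h x)) t).symm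
  have hm1 : Measurable (fun x : ℝ => dsq (h (x + t + s)) (h (x + t))) := by
    have := meas_dsq_one hm (t + s) t
    simpa [add_assoc] using this
  rw [e1]
  unfold Nf
  rw [← lintegral_const_mul _ hm1]
  rw [← lintegral_const_mul' _ _ (by simp)]
  rw [← lintegral_add_left (hm1.const_mul 2)]
  apply lintegral_mono
  intro x
  have : x + (s + t) = x + t + s := by ring
  simp only [this]
  exact dsq_triangle _ _ _

lemma Nf_nsmul {h : ℝ → ℝ≥0∞} (hm : Measurable h) (s : ℝ) (n : ℕ) :
    Nf h (n * s) ≤ 4 ^ n * Nf h s := by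
  induction n with
  | zero => simp [Nf_zero]
  | succ n ih =>
    have e : ((n + 1 : ℕ) : ℝ) * s = n * s + s := by push_cast; ring
    rw [e]
    refine (Nf_add hm _ _).trans ?_
    have h4 : (1 : ℝ≥0∞) ≤ 4 ^ n := one_le_pow₀ (by norm_num)
    calc 2 * Nf h (n * s) + 2 * Nf h s
        ≤ 2 * (4 ^ n * Nf h s) + 2 * (4 ^ n * Nf h s) := by
          gcongr
          calc Nf h s = 1 * Nf h s := (one_mul _).symm
            _ ≤ 4 ^ n * Nf h s := by gcongr
      _ = 4 ^ (n + 1) * Nf h s := by ring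

lemma cross {h : ℝ → ℝ≥0∞} (hm : Measurable h) (s : ℝ) :
    2 * (∫⁻ x, h (x + s) * h x) + Nf h s = 2 * sqn h := by
  have hm1 : Measurable (fun x : ℝ => h (x + s) * h x) :=
    (hm.comp (measurable_id.add_const s)).mul hm
  have e1 : sqn h = ∫⁻ x, h (x + s) ^ 2 :=
    (lintegral_add_right_eq_self (fun x => h x ^ 2) s).symm
  have e2 : 2 * sqn h = (∫⁻ x, h (x + s) ^ 2) + ∫⁻ x, h x ^ 2 := by
    rw [← e1]; unfold sqn; ring
  rw [e2, ← lintegral_add_right _ (hm.pow_const 2)]
  unfold Nf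
  rw [← lintegral_const_mul _ hm1, ← lintegral_add_left (hm1.const_mul 2)]
  apply lintegral_congr
  intro x
  exact (sq_add_sq _ _).symm

/-- The averaging operator. -/
noncomputable def Aop (a c : ℝ) (h : ℝ → ℝ≥0∞) (g : ℝ) : ℝ≥0∞ :=
  ENNReal.ofReal (1 / (2 * a)) * ∫⁻ v in Icc (-a) a, h (v - c - g)

lemma measurable_Aop {h : ℝ → ℝ≥0∞} (hm : Measurable h) (a c : ℝ) :
    Measurable (Aop a c h) := by
  unfold Aop
  refine Measurable.const_mul ?_ _
  have : Measurable (fun p : ℝ × ℝ => h (p.2 - c - p.1)) :=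
    hm.comp ((measurable_snd.sub_const c).sub measurable_fst)
  exact this.lintegral_prod_right'

lemma ker_eq {h : ℝ → ℝ≥0∞} (c v v' : ℝ) :
    (∫⁻ g, h (v' - c - g) * h (v - c - g)) = ∫⁻ x, h (x + (v' - v)) * h x := by
  have := lintegral_sub_left_eq_self (μ := volume) (fun x => h (x + (v' - v)) * h x) (v - c)
  rw [← this]
  apply lintegral_congr
  intro g
  congr 2
  ring

lemma Aop_sq {h : ℝ → ℝ≥0∞} (hm : Measurable h) (a c : ℝ) :
    sqn (Aop a c h) = ENNReal.ofReal (1 / (2 * a)) ^ 2 *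
      ∫⁻ v in Icc (-a) a, ∫⁻ v' in Icc (-a) a, ∫⁻ x, h (x + (v' - v)) * h x := by
  unfold sqn Aop
  have e1 : ∀ g : ℝ, (ENNReal.ofReal (1 / (2 * a)) * ∫⁻ v in Icc (-a) a, h (v - c - g)) ^ 2
      = ENNReal.ofReal (1 / (2 * a)) ^ 2 *
        ∫⁻ v in Icc (-a) a, ∫⁻ v' in Icc (-a) a, h (v' - c - g) * h (v - c - g) := by
    intro g
    have hmg : Measurable (fun v : ℝ => h (v - c - g)) :=
      hm.comp ((measurable_id.sub_const c).sub_const g)
    rw [mul_pow, sq (∫⁻ v in Icc (-a) a, h (v - c - g))]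
    congr 1
    rw [← lintegral_const_mul _ hmg]
    apply lintegral_congr
    intro v
    rw [← lintegral_mul_const _ hmg]
  simp only [e1]
  have hm3 : Measurable (fun p : ℝ × ℝ => ∫⁻ v' in Icc (-a) a,
      h (v' - c - p.1) * h (p.2 - c - p.1)) := by
    have : Measurable (fun q : (ℝ × ℝ) × ℝ => h (q.2 - c - q.1.1) * h (q.1.2 - c - q.1.1)) := by
      apply Measurable.mul
      · exact hm.comp ((measurable_snd.sub_const c).sub (measurable_fst.comp measurable_fst))
      · exact hm.comp (((measurable_snd.comp measurable_fst).sub_const c).sub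
          (measurable_fst.comp measurable_fst))
    exact this.lintegral_prod_right'
  rw [lintegral_const_mul _ hm3.lintegral_prod_right']
  congr 1
  rw [lintegral_lintegral_swap hm3.aemeasurable]
  apply lintegral_congr
  intro v
  rw [lintegral_lintegral_swap]
  · apply lintegral_congr
    intro v'
    exact ker_eq c v v'
  · apply Measurable.aemeasurable
    apply Measurable.mul
    · exact hm.comp ((measurable_snd.sub_const c).sub measurable_fst)
    · exact hm.comp (Measurable.sub (measurable_const : Measurable fun _ : ℝ × ℝ => v - c)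
        measurable_fst)

/-- The integrated modulus. -/
noncomputable def Mf (a : ℝ) (h : ℝ → ℝ≥0∞) : ℝ≥0∞ := ∫⁻ s in Icc (a / 2) a, Nf h s

lemma vol_box (a : ℝ) : (volume.restrict (Icc (-a) a)) univ = ENNReal.ofReal (2 * a) := by
  rw [Measure.restrict_apply_univ, Real.volume_Icc]; congr 1; ring

lemma loss {h : ℝ → ℝ≥0∞} (hm : Measurable h) {a : ℝ} (ha : 0 < a) (c : ℝ) :
    sqn (Aop a c h) + ENNReal.ofReal (1 / (8 * a)) * Mf a h ≤ sqn h := by
  set k : ℝ≥0∞ := ENNReal.ofReal (1 / (2 * a)) with hk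
  have hmc : Measurable (fun p : ℝ × ℝ => ∫⁻ x, h (x + (p.2 - p.1)) * h x) := by
    have : Measurable (fun q : (ℝ × ℝ) × ℝ => h (q.2 + (q.1.2 - q.1.1)) * h q.2) := by
      apply Measurable.mul
      · exact hm.comp (measurable_snd.add
          ((measurable_snd.comp measurable_fst).sub (measurable_fst.comp measurable_fst)))
      · exact hm.comp measurable_snd
    exact this.lintegral_prod_right'
  have hmN : Measurable (fun p : ℝ × ℝ => Nf h (p.2 - p.1)) :=
    (measurable_Nf hm).comp (measurable_snd.sub measurable_fst)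
  -- the identity
  have key : 2 * sqn (Aop a c h) + k ^ 2 *
      (∫⁻ v in Icc (-a) a, ∫⁻ v' in Icc (-a) a, Nf h (v' - v)) = 2 * sqn h := by
    rw [Aop_sq hm]
    have e0 : 2 * (k ^ 2 * ∫⁻ v in Icc (-a) a, ∫⁻ v' in Icc (-a) a,
        ∫⁻ x, h (x + (v' - v)) * h x)
        = k ^ 2 * ∫⁻ v in Icc (-a) a, ∫⁻ v' in Icc (-a) a,
          2 * ∫⁻ x, h (x + (v' - v)) * h x := by
      rw [mul_left_comm, ← lintegral_const_mul _ hmc.lintegral_prod_right']
      congr 1
      apply lintegral_congr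
      intro v
      rw [lintegral_const_mul]
      exact hmc.comp (measurable_const.prodMk measurable_id)
    rw [e0, ← mul_add, ← lintegral_add_right _ hmN.lintegral_prod_right']
    have e2 : ∀ v : ℝ, (∫⁻ v' in Icc (-a) a, 2 * ∫⁻ x, h (x + (v' - v)) * h x)
        + (∫⁻ v' in Icc (-a) a, Nf h (v' - v)) = ENNReal.ofReal (2 * a) * (2 * sqn h) := by
      intro v
      have hmN1 : Measurable fun v' => Nf h (v' - v) :=
        (measurable_Nf hm).comp (measurable_id.sub_const v)
      rw [← lintegral_add_right _ hmN1]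
      simp only [cross hm]
      rw [lintegral_const, vol_box, mul_comm]
    simp only [e2]
    rw [lintegral_const, vol_box]
    have : k ^ 2 * (ENNReal.ofReal (2 * a) * (2 * sqn h) * ENNReal.ofReal (2 * a))
        = (k * ENNReal.ofReal (2 * a)) ^ 2 * (2 * sqn h) := by ring
    rw [this]
    have hk1 : k * ENNReal.ofReal (2 * a) = 1 := by
      rw [hk, ← ENNReal.ofReal_mul (by positivity)]
      rw [show 1 / (2 * a) * (2 * a) = 1 by field_simp]
      simp
    rw [hk1]; simp
  -- the lower bound of the loss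
  have low : ENNReal.ofReal a * Mf a h ≤
      ∫⁻ v in Icc (-a) a, ∫⁻ v' in Icc (-a) a, Nf h (v' - v) := by
    calc ENNReal.ofReal a * Mf a h = ∫⁻ v in Icc (-a) 0, Mf a h := by
          rw [lintegral_const, Measure.restrict_apply_univ, Real.volume_Icc, mul_comm]
          congr 2; ring
      _ ≤ ∫⁻ v in Icc (-a) 0, ∫⁻ v' in Icc (-a) a, Nf h (v' - v) := by
          apply setLIntegral_mono' measurableSet_Icc
          intro v hv
          unfold Mf
          rw [← lintegral_indicator measurableSet_Icc, ← lintegral_indicator measurableSet_Icc]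
          rw [← lintegral_sub_right_eq_self (fun s => (Icc (a / 2) a).indicator (fun s => Nf h s) s) v]
          apply lintegral_mono
          intro v'
          simp only [indicator]
          by_cases hc : v' - v ∈ Icc (a / 2) a
          · have : v' ∈ Icc (-a) a := by
              constructor
              · have := hc.1; have := hv.1; linarith
              · have := hc.2; have := hv.2; linarith
            simp [hc, this]
          · simp [hc]
      _ ≤ ∫⁻ v in Icc (-a) a, ∫⁻ v' in Icc (-a) a, Nf h (v' - v) := by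
          apply lintegral_mono_set
          exact Icc_subset_Icc le_rfl ha.le
  have h2 : 2 * (sqn (Aop a c h) + ENNReal.ofReal (1 / (8 * a)) * Mf a h) ≤ 2 * sqn h := by
    rw [← key, mul_add]
    refine add_le_add le_rfl ?_
    calc 2 * (ENNReal.ofReal (1 / (8 * a)) * Mf a h)
        = k ^ 2 * (ENNReal.ofReal a * Mf a h) := by
          rw [← mul_assoc, ← mul_assoc]
          congr 1
          rw [hk, ← ENNReal.ofReal_pow (by positivity), ← ENNReal.ofReal_mul (by positivity),
            show (2 : ℝ≥0∞) = ENNReal.ofReal 2 by simp, ← ENNReal.ofReal_mul (by norm_num)]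
          congr 1
          field_simp
          ring
      _ ≤ _ := by gcongr
  exact (ENNReal.mul_le_mul_iff_right (by norm_num) (by norm_num)).1 h2

end P365SH
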