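import Vale.Agent.P365.SH.L1a

/-!
P365 T1, the shield, part 2: local mass bound, inversion, two-step contraction.
-/

open MeasureTheory Set
open scoped ENNReal

namespace P365SH

/-- Mass of an interval of length 2, one shift. -/
lemma mass_one {h : ℝ → ℝ≥0∞} (hm : Measurable h) (t0 : ℝ) (s : ℝ) (n : ℕ)
    (hS : 2 < n * s) :
    8 * (∫⁻ x in Icc (t0 - 1) (t0 + 1), h x ^ 2) ≤ 2 * sqn h + 16 * 4 ^ (8 * n) * Nf h s := by
  set I : Set ℝ := Icc (t0 - 1) (t0 + 1) with hI
  have hIm : MeasurableSet I := measurableSet_Icc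
  set S : ℝ := n * s with hSdef
  let ind : ℝ → ℝ≥0∞ := I.indicator (fun _ => (1 : ℝ≥0∞))
  have hind : Measurable ind := measurable_const.indicator hIm
  have e1 : (∫⁻ x in I, h x ^ 2) = ∫⁻ x, ind x * h x ^ 2 := by
    rw [← lintegral_indicator hIm]
    apply lintegral_congr
    intro x
    simp only [ind, indicator]
    split_ifs <;> simp
  have step : ∀ j : ℕ, j < 8 → (∫⁻ x, ind x * h x ^ 2) ≤
      2 * (∫⁻ x, ind (x - j * S) * h x ^ 2) + 2 * (4 ^ (8 * n) * Nf h s) := by
    intro j hj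
    have hN : Nf h (j * S) ≤ 4 ^ (8 * n) * Nf h s := by
      have : (j : ℝ) * S = ((j * n : ℕ) : ℝ) * s := by rw [hSdef]; push_cast; ring
      rw [this]
      refine (Nf_nsmul hm s _).trans ?_
      gcongr
      · norm_num
    have e2 : (∫⁻ x, ind (x - j * S) * h x ^ 2) = ∫⁻ x, ind x * h (x + j * S) ^ 2 := by
      rw [← lintegral_add_right_eq_self (fun x => ind (x - j * S) * h x ^ 2) (j * S)]
      apply lintegral_congr
      intro x
      simp
    rw [e2]
    have hmS : Measurable fun x : ℝ => ind x * h (x + j * S) ^ 2 :=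
      hind.mul ((hm.comp (measurable_id.add_const _)).pow_const 2)
    calc (∫⁻ x, ind x * h x ^ 2)
        ≤ ∫⁻ x, (2 * (ind x * h (x + j * S) ^ 2) + 2 * dsq (h (x + j * S)) (h x)) := by
          apply lintegral_mono
          intro x
          simp only
          calc ind x * h x ^ 2
              ≤ ind x * (2 * h (x + j * S) ^ 2 + 2 * dsq (h (x + j * S)) (h x)) := by
                gcongr
                exact sq_le_dsq _ _
            _ = 2 * (ind x * h (x + j * S) ^ 2) + ind x * (2 * dsq (h (x + j * S)) (h x)) := by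
                ring
            _ ≤ _ := by
                refine add_le_add le_rfl ?_
                have : ind x ≤ 1 := by
                  simp only [ind, indicator]; split_ifs <;> simp
                calc ind x * (2 * dsq (h (x + j * S)) (h x))
                    ≤ 1 * (2 * dsq (h (x + j * S)) (h x)) := by gcongr
                  _ = _ := one_mul _
      _ = 2 * (∫⁻ x, ind x * h (x + j * S) ^ 2) + 2 * Nf h (j * S) := by
          rw [lintegral_add_left (hmS.const_mul 2), lintegral_const_mul _ hmS,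
            lintegral_const_mul' _ _ (by simp)]
          rfl
      _ ≤ _ := by gcongr
  have sumle : ∀ x : ℝ, ∑ j ∈ Finset.range 8, ind (x - j * S) ≤ 1 := by
    intro x
    by_cases hx : ∃ j0 ∈ Finset.range 8, x - j0 * S ∈ I
    · obtain ⟨j0, hj0, hxj⟩ := hx
      rw [Finset.sum_eq_single_of_mem j0 hj0]
      · simp only [ind, indicator]; split_ifs <;> simp
      · intro b _ hb
        simp only [ind, indicator]
        rw [if_neg]
        intro hxb
        have h1 := hxj.1
        have h2 := hxj.2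
        have h3 := hxb.1
        have h4 := hxb.2
        rcases lt_or_gt_of_ne hb with hlt | hgt
        · have : (b : ℝ) + 1 ≤ j0 := by exact_mod_cast hlt
          have : ((j0 : ℝ) - b) * S ≥ 1 * S := by
            apply mul_le_mul_of_nonneg_right (by linarith) (by linarith)
          nlinarith
        · have : (j0 : ℝ) + 1 ≤ b := by exact_mod_cast hgt
          have : ((b : ℝ) - j0) * S ≥ 1 * S := by
            apply mul_le_mul_of_nonneg_right (by linarith) (by linarith)
          nlinarith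
    · push Not at hx
      rw [Finset.sum_eq_zero]
      · simp
      · intro j hj
        simp only [ind, indicator]
        rw [if_neg (hx j hj)]
  have hsum : ∑ j ∈ Finset.range 8, (∫⁻ x, ind (x - j * S) * h x ^ 2) ≤ sqn h := by
    have hmj : ∀ j ∈ Finset.range 8, Measurable fun x : ℝ => ind (x - j * S) * h x ^ 2 := by
      intro j _
      exact (hind.comp (measurable_id.sub_const _)).mul (hm.pow_const 2)
    rw [← lintegral_finsetSum _ hmj]
    apply lintegral_mono
    intro x
    simp only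
    rw [← Finset.sum_mul]
    calc _ ≤ 1 * h x ^ 2 := by gcongr; exact sumle x
      _ = _ := one_mul _
  rw [e1]
  calc 8 * (∫⁻ x, ind x * h x ^ 2) = ∑ j ∈ Finset.range 8, (∫⁻ x, ind x * h x ^ 2) := by
        rw [Finset.sum_const]; simp
    _ ≤ ∑ j ∈ Finset.range 8, (2 * (∫⁻ x, ind (x - j * S) * h x ^ 2)
          + 2 * (4 ^ (8 * n) * Nf h s)) := by
        apply Finset.sum_le_sum
        intro j hj
        exact step j (Finset.mem_range.1 hj)
    _ = 2 * (∑ j ∈ Finset.range 8, (∫⁻ x, ind (x - j * S) * h x ^ 2))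
          + 8 * (2 * (4 ^ (8 * n) * Nf h s)) := by
        rw [Finset.sum_add_distrib, ← Finset.mul_sum, Finset.sum_const]; simp
    _ ≤ 2 * sqn h + 8 * (2 * (4 ^ (8 * n) * Nf h s)) := by gcongr
    _ = _ := by ring

/-- The local mass bound. -/
lemma mass {h : ℝ → ℝ≥0∞} (hm : Measurable h) {a : ℝ} (ha : 0 < a) (n : ℕ)
    (hn : 4 / a < n) (t0 : ℝ) :
    (∫⁻ x in Icc (t0 - 1) (t0 + 1), h x ^ 2) ≤
      ENNReal.ofReal (1 / 4) * sqn h + ENNReal.ofReal (4 / a * 4 ^ (8 * n)) * Mf a h := by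
  set X := (∫⁻ x in Icc (t0 - 1) (t0 + 1), h x ^ 2) with hX
  have key : ENNReal.ofReal (a / 2) * (8 * X) ≤
      ENNReal.ofReal (a / 2) * (2 * sqn h) + 16 * 4 ^ (8 * n) * Mf a h := by
    have hv : (volume.restrict (Icc (a / 2) a)) univ = ENNReal.ofReal (a / 2) := by
      rw [Measure.restrict_apply_univ, Real.volume_Icc]; congr 1; ring
    calc ENNReal.ofReal (a / 2) * (8 * X) = ∫⁻ s in Icc (a / 2) a, 8 * X := by
          rw [lintegral_const, hv, mul_comm]
      _ ≤ ∫⁻ s in Icc (a / 2) a, (2 * sqn h + 16 * 4 ^ (8 * n) * Nf h s) := by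
          apply setLIntegral_mono' measurableSet_Icc
          intro s hs
          apply mass_one hm t0 s n
          have h1 : 4 < n * a := by
            rw [div_lt_iff₀ ha] at hn; linarith
          have h2 := hs.1
          have hn0 : (0 : ℝ) < n := lt_trans (by positivity) hn
          nlinarith
      _ = _ := by
          rw [lintegral_add_left measurable_const, lintegral_const, hv,
            lintegral_const_mul _ (measurable_Nf hm), mul_comm (2 * sqn h)]
          rfl
  have h4 : ENNReal.ofReal (4 * a) * X ≤ ENNReal.ofReal (4 * a) *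
      (ENNReal.ofReal (1 / 4) * sqn h + ENNReal.ofReal (4 / a * 4 ^ (8 * n)) * Mf a h) := by
    calc ENNReal.ofReal (4 * a) * X = ENNReal.ofReal (a / 2) * (8 * X) := by
          rw [← mul_assoc]; congr 1
          rw [show (8 : ℝ≥0∞) = ENNReal.ofReal 8 by simp, ← ENNReal.ofReal_mul (by positivity)]
          congr 1; ring
      _ ≤ _ := key
      _ = _ := by
          rw [mul_add, ← mul_assoc, ← mul_assoc, ← mul_assoc]
          congr 2
          · rw [show (2 : ℝ≥0∞) = ENNReal.ofReal 2 by simp, ← ENNReal.ofReal_mul (by positivity),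
              ← ENNReal.ofReal_mul (by positivity)]
            congr 1; ring
          · rw [← ENNReal.ofReal_mul (by positivity)]
            rw [show (16 : ℝ≥0∞) = ENNReal.ofReal 16 by simp,
              show (4 : ℝ≥0∞) = ENNReal.ofReal 4 by simp,
              ← ENNReal.ofReal_pow (by norm_num), ← ENNReal.ofReal_mul (by positivity)]
            congr 1
            field_simp
            ring
  refine (ENNReal.mul_le_mul_iff_right ?_ ?_).1 h4
  · simp [ha]
  · exact ENNReal.ofReal_ne_top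

/-- The inversion operator. -/
noncomputable def Jop (u : ℝ → ℝ≥0∞) (t : ℝ) : ℝ≥0∞ := ENNReal.ofReal |t⁻¹| * u t⁻¹

lemma measurable_Jop {u : ℝ → ℝ≥0∞} (hm : Measurable u) : Measurable (Jop u) := by
  unfold Jop
  exact ((measurable_inv.abs).ennreal_ofReal).mul (hm.comp measurable_inv)

lemma Jop_set (u : ℝ → ℝ≥0∞) (s : Set ℝ) (hs : MeasurableSet s) (h0 : ∀ x ∈ s, x ≠ 0) :
    (∫⁻ t in s, Jop u t ^ 2) = ∫⁻ x in (fun t : ℝ => t⁻¹) '' s, u x ^ 2 := by
  rw [lintegral_image_eq_lintegral_abs_deriv_mul (f' := fun x => -(x ^ 2)⁻¹) hs]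
  · apply setLIntegral_congr_fun hs
    intro x hx
    simp only [Jop]
    rw [mul_pow]
    congr 1
    rw [← ENNReal.ofReal_pow (abs_nonneg _)]
    congr 1
    rw [abs_neg, abs_inv, abs_inv, inv_pow, abs_pow]
  · intro x hx
    exact (hasDerivAt_inv (h0 x hx)).hasDerivWithinAt
  · intro x _ y _ hxy
    simpa using hxy

lemma sqn_eq_punctured (u : ℝ → ℝ≥0∞) : sqn u = ∫⁻ t in {(0 : ℝ)}ᶜ, u t ^ 2 := by
  unfold sqn
  have : (volume : Measure ℝ).restrict {(0 : ℝ)}ᶜ = volume := by
    apply Measure.restrict_eq_self_of_ae_mem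
    have : ∀ᵐ x : ℝ ∂volume, x ≠ 0 := Measure.ae_ne volume 0
    filter_upwards [this] with x hx
    exact hx
  rw [this]

lemma sqn_Jop (u : ℝ → ℝ≥0∞) : sqn (Jop u) = sqn u := by
  rw [sqn_eq_punctured, sqn_eq_punctured u,
    Jop_set u _ (measurableSet_singleton 0).compl (by intro x hx; exact hx)]
  congr 2
  ext x
  simp only [mem_image, mem_compl_iff, mem_singleton_iff]
  constructor
  · rintro ⟨t, ht, rfl⟩
    exact inv_ne_zero ht
  · intro hx
    exact ⟨x⁻¹, inv_ne_zero hx, inv_inv x⟩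

lemma sqn_Jop_split (u : ℝ → ℝ≥0∞) :
    sqn (Jop u) ≤ (∫⁻ x in Icc (0 - 1 : ℝ) (0 + 1), u x ^ 2) +
      ∫⁻ t in Icc (0 - 1 : ℝ) (0 + 1), Jop u t ^ 2 := by
  have h1 : (∫⁻ t in {t : ℝ | 1 < |t|}, Jop u t ^ 2) ≤ ∫⁻ x in Icc (0 - 1 : ℝ) (0 + 1), u x ^ 2 := by
    rw [Jop_set u]
    · apply lintegral_mono_set
      rintro x ⟨t, ht, rfl⟩
      simp only [mem_ofPred_eq] at ht
      have : |t⁻¹| ≤ 1 := by
        rw [abs_inv]; exact inv_le_one_of_one_le₀ ht.le
      rw [abs_le] at this
      simp only [mem_Icc]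
      constructor <;> linarith [this.1, this.2]
    · exact measurableSet_lt measurable_const measurable_id.abs
    · intro x hx h0
      simp only [mem_ofPred_eq, h0, abs_zero] at hx
      linarith
  have h2 : sqn (Jop u) ≤ (∫⁻ t in {t : ℝ | 1 < |t|}, Jop u t ^ 2) +
      ∫⁻ t in Icc (0 - 1 : ℝ) (0 + 1), Jop u t ^ 2 := by
    unfold sqn
    rw [← lintegral_add_compl (μ := volume) (fun t => Jop u t ^ 2)
      (measurableSet_lt measurable_const measurable_id.abs : MeasurableSet {t : ℝ | 1 < |t|})]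
    gcongr
    intro t ht
    simp only [mem_compl_iff, mem_ofPred_eq, not_lt] at ht
    rw [abs_le] at ht
    simp only [mem_Icc]
    constructor <;> linarith [ht.1, ht.2]
  exact h2.trans (by gcongr)

/-- Cauchy-Schwarz on the box. -/
lemma box_CS {k : ℝ → ℝ≥0∞} (hm : Measurable k) {a : ℝ} (ha : 0 < a) :
    (ENNReal.ofReal (1 / (2 * a)) * ∫⁻ v in Icc (-a) a, k v) ^ 2 ≤
      ENNReal.ofReal (1 / (2 * a)) * ∫⁻ v in Icc (-a) a, k v ^ 2 := by
  set κ : ℝ≥0∞ := ENNReal.ofReal (1 / (2 * a)) with hκ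
  set L : ℝ≥0∞ := ENNReal.ofReal (2 * a) with hL
  have hk1 : κ * L = 1 := by
    rw [hκ, ← ENNReal.ofReal_mul (by positivity)]
    rw [show 1 / (2 * a) * (2 * a) = 1 by field_simp]
    simp
  have h1 : 2 * (∫⁻ v in Icc (-a) a, k v) ^ 2 ≤ 2 * (L * ∫⁻ v in Icc (-a) a, k v ^ 2) := by
    calc 2 * (∫⁻ v in Icc (-a) a, k v) ^ 2
        = ∫⁻ v in Icc (-a) a, ∫⁻ w in Icc (-a) a, 2 * (k v * k w) := by
          rw [sq, ← lintegral_mul_const _ hm, ← lintegral_const_mul _ (hm.mul_const _)]
          apply lintegral_congr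
          intro v
          rw [← lintegral_const_mul _ hm, ← lintegral_const_mul _ (hm.const_mul _)]
      _ ≤ ∫⁻ v in Icc (-a) a, ∫⁻ w in Icc (-a) a, (k v ^ 2 + k w ^ 2) := by
          apply lintegral_mono; intro v
          apply lintegral_mono; intro w
          exact two_mul_le _ _
      _ = ∫⁻ v in Icc (-a) a, (k v ^ 2 * L + ∫⁻ w in Icc (-a) a, k w ^ 2) := by
          apply lintegral_congr; intro v
          rw [lintegral_add_left measurable_const, lintegral_const, vol_box]
      _ = 2 * (L * ∫⁻ v in Icc (-a) a, k v ^ 2) := by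
          rw [lintegral_add_right _ measurable_const, lintegral_const, vol_box,
            lintegral_mul_const _ (hm.pow_const 2)]
          ring
  have h2 : (∫⁻ v in Icc (-a) a, k v) ^ 2 ≤ L * ∫⁻ v in Icc (-a) a, k v ^ 2 :=
    (ENNReal.mul_le_mul_iff_right (by norm_num) (by norm_num)).1 h1
  calc (κ * ∫⁻ v in Icc (-a) a, k v) ^ 2 = κ ^ 2 * (∫⁻ v in Icc (-a) a, k v) ^ 2 := by ring
    _ ≤ κ ^ 2 * (L * ∫⁻ v in Icc (-a) a, k v ^ 2) := by gcongr
    _ = κ * (κ * L) * ∫⁻ v in Icc (-a) a, k v ^ 2 := by ring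
    _ = _ := by rw [hk1, mul_one]

/-- Mass of the average on the unit interval. -/
lemma Aop_mass {h : ℝ → ℝ≥0∞} (hm : Measurable h) {a : ℝ} (ha : 0 < a) (c : ℝ) (B : ℝ≥0∞)
    (hB : ∀ t0 : ℝ, (∫⁻ x in Icc (t0 - 1) (t0 + 1), h x ^ 2) ≤ B) :
    (∫⁻ x in Icc (0 - 1 : ℝ) (0 + 1), Aop a c h x ^ 2) ≤ B := by
  have hm2 : Measurable (fun p : ℝ × ℝ => h (p.2 - c - p.1) ^ 2) :=
    (hm.comp ((measurable_snd.sub_const c).sub measurable_fst)).pow_const 2
  calc (∫⁻ x in Icc (0 - 1 : ℝ) (0 + 1), Aop a c h x ^ 2)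
      ≤ ∫⁻ x in Icc (0 - 1 : ℝ) (0 + 1), ENNReal.ofReal (1 / (2 * a)) *
          ∫⁻ v in Icc (-a) a, h (v - c - x) ^ 2 := by
        apply lintegral_mono
        intro x
        exact box_CS (hm.comp ((measurable_id.sub_const c).sub_const x)) ha
    _ = ENNReal.ofReal (1 / (2 * a)) * ∫⁻ v in Icc (-a) a,
          ∫⁻ x in Icc (0 - 1 : ℝ) (0 + 1), h (v - c - x) ^ 2 := by
        rw [lintegral_const_mul _ hm2.lintegral_prod_right', lintegral_lintegral_swap
          hm2.aemeasurable]
    _ ≤ ENNReal.ofReal (1 / (2 * a)) * ∫⁻ v in Icc (-a) a, B := by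
        gcongr with v
        refine le_trans (le_of_eq ?_) (hB (v - c))
        rw [← lintegral_indicator measurableSet_Icc, ← lintegral_indicator measurableSet_Icc]
        rw [← lintegral_sub_left_eq_self (μ := volume)
          (fun x => (Icc (v - c - 1) (v - c + 1)).indicator (fun x => h x ^ 2) x) (v - c)]
        apply lintegral_congr
        intro x
        simp only [indicator]
        by_cases hx : x ∈ Icc (0 - 1 : ℝ) (0 + 1)
        · have : v - c - x ∈ Icc (v - c - 1) (v - c + 1) := by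
            constructor <;> linarith [hx.1, hx.2]
          simp only [if_pos hx, if_pos this]
        · have : v - c - x ∉ Icc (v - c - 1) (v - c + 1) := by
            intro hy
            apply hx
            constructor <;> linarith [hy.1, hy.2]
          simp only [if_neg hx, if_neg this]
    _ = B := by
        rw [lintegral_const, vol_box, mul_comm B, ← mul_assoc,
          ← ENNReal.ofReal_mul (by positivity)]
        rw [show 1 / (2 * a) * (2 * a) = 1 by field_simp]
        simp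

/-- Two-step contraction. -/
lemma contraction {a : ℝ} (ha : 0 < a) : ∃ q : ℝ, 0 < q ∧ q < 1 ∧
    ∀ (c : ℝ) (h : ℝ → ℝ≥0∞), Measurable h →
      sqn (Aop a c (Jop (Aop a c h))) ≤ ENNReal.ofReal q * sqn h := by
  obtain ⟨n, hn⟩ := exists_nat_gt (4 / a)
  set D : ℝ := 4 / a * 4 ^ (8 * n) with hD
  have hDpos : 0 < D := by positivity
  set κ : ℝ := 1 / (8 * a) with hκ
  have hκpos : 0 < κ := by positivity
  -- u1 ≤ (2/3) h0 + (4/3) D (N0+N1); we use q = (2κ + 4 D)/(3κ+4D)
  refine ⟨(2 * κ + 4 * D) / (3 * κ + 4 * D), by positivity, ?_, ?_⟩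
  · rw [div_lt_one (by positivity)]; linarith
  intro c h hm
  set u := Aop a c h with hu
  have hum : Measurable u := measurable_Aop hm a c
  set h1 := Jop u with hh1
  have h1m : Measurable h1 := measurable_Jop hum
  set u1 := Aop a c h1 with hu1
  by_cases htop : sqn h = ⊤
  · rw [htop, ENNReal.mul_top]
    · exact le_top
    · simp only [ne_eq, ENNReal.ofReal_eq_zero, not_le]; positivity
  have l0 : sqn u + ENNReal.ofReal κ * Mf a h ≤ sqn h := loss hm ha c
  have l1 : sqn u1 + ENNReal.ofReal κ * Mf a h1 ≤ sqn h1 := loss h1m ha c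
  have eJ : sqn h1 = sqn u := sqn_Jop u
  have hsplit : sqn h1 ≤ (ENNReal.ofReal (1 / 4) * sqn h + ENNReal.ofReal D * Mf a h) +
      (ENNReal.ofReal (1 / 4) * sqn h1 + ENNReal.ofReal D * Mf a h1) := by
    refine (sqn_Jop_split u).trans ?_
    gcongr
    · exact Aop_mass hm ha c _ (fun t0 => mass hm ha n hn t0)
    · exact mass h1m ha n hn 0
  -- pass to reals
  have fu : sqn u ≠ ⊤ := ne_top_of_le_ne_top htop (le_trans le_self_add l0)
  have f1 : sqn h1 ≠ ⊤ := by rw [eJ]; exact fu
  have fu1 : sqn u1 ≠ ⊤ := ne_top_of_le_ne_top f1 (le_trans le_self_add l1)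
  have fM0 : Mf a h ≠ ⊤ := by
    intro ht
    rw [ht, ENNReal.mul_top (by simp [hκpos])] at l0
    simp at l0
    exact htop l0
  have fM1 : Mf a h1 ≠ ⊤ := by
    intro ht
    rw [ht, ENNReal.mul_top (by simp [hκpos])] at l1
    simp at l1
    exact f1 l1
  obtain ⟨x, hx⟩ : ∃ x : ℝ, x = (sqn h).toReal := ⟨_, rfl⟩
  lift sqn h to NNReal using htop with X
  lift sqn u to NNReal using fu with U
  lift sqn h1 to NNReal using f1 with X1
  lift sqn u1 to NNReal using fu1 with U1
  lift Mf a h to NNReal using fM0 with M0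
  lift Mf a h1 to NNReal using fM1 with M1
  have r0 : (U : ℝ) + κ * M0 ≤ X := by
    have := ENNReal.toReal_mono (by simp) l0
    rw [ENNReal.toReal_add (by simp) (by simp [ENNReal.mul_eq_top])] at this
    simpa [ENNReal.toReal_mul, ENNReal.toReal_ofReal hκpos.le] using this
  have r1 : (U1 : ℝ) + κ * M1 ≤ X1 := by
    have := ENNReal.toReal_mono (by simp) l1
    rw [ENNReal.toReal_add (by simp) (by simp [ENNReal.mul_eq_top])] at this
    simpa [ENNReal.toReal_mul, ENNReal.toReal_ofReal hκpos.le] using this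
  have r2 : (X1 : ℝ) = U := by exact_mod_cast eJ
  have r3 : (X1 : ℝ) ≤ (1 / 4 * X + D * M0) + (1 / 4 * X1 + D * M1) := by
    have := ENNReal.toReal_mono (by simp [ENNReal.mul_eq_top]) hsplit
    rw [ENNReal.toReal_add (by simp [ENNReal.mul_eq_top]) (by simp [ENNReal.mul_eq_top]),
      ENNReal.toReal_add (by simp [ENNReal.mul_eq_top]) (by simp [ENNReal.mul_eq_top]),
      ENNReal.toReal_add (by simp [ENNReal.mul_eq_top]) (by simp [ENNReal.mul_eq_top])] at this
    simpa [ENNReal.toReal_mul, ENNReal.toReal_ofReal hDpos.le] using this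
  have hM0 : (0 : ℝ) ≤ M0 := M0.2
  have hM1 : (0 : ℝ) ≤ M1 := M1.2
  have goal : (U1 : ℝ) ≤ (2 * κ + 4 * D) / (3 * κ + 4 * D) * X := by
    rw [div_mul_eq_mul_div, le_div_iff₀ (by positivity)]
    -- U1 ≤ X1 ; 3/4 X1 ≤ 1/4 X + D (M0+M1); κ(M0+M1) + U1 ≤ X
    have a1 : κ * (M0 + M1) + U1 ≤ X := by linarith
    have a2 : 3 * (U1 : ℝ) ≤ X + 4 * D * (M0 + M1) := by
      have : 0 ≤ κ * M1 := by positivity
      linarith
    have a3 : κ * (3 * (U1 : ℝ)) ≤ κ * X + 4 * D * (X - U1) := by
      have b1 : κ * (3 * (U1 : ℝ)) ≤ κ * (X + 4 * D * (M0 + M1)) := by gcongr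
      have b2 : 4 * D * (κ * (M0 + M1)) ≤ 4 * D * (X - U1) := by
        apply mul_le_mul_of_nonneg_left _ (by positivity)
        linarith
      nlinarith
    have hX : (0 : ℝ) ≤ X := X.2
    nlinarith [mul_nonneg hκpos.le hX]
  have hq : (0 : ℝ) ≤ (2 * κ + 4 * D) / (3 * κ + 4 * D) := by positivity
  calc (U1 : ℝ≥0∞) = ENNReal.ofReal (U1 : ℝ) := by simp
    _ ≤ ENNReal.ofReal ((2 * κ + 4 * D) / (3 * κ + 4 * D) * X) := ENNReal.ofReal_le_ofReal goal
    _ = ENNReal.ofReal ((2 * κ + 4 * D) / (3 * κ + 4 * D)) * X := by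
        rw [ENNReal.ofReal_mul hq]; simp

end P365SH
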