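import Vale.Agent.P365.SH.L1b

/-!
P365 T1, the shield, part 3: the one dimensional Green function, fractional moments.
-/

open MeasureTheory Set
open scoped ENNReal

namespace P365SH

/-! ### Integrating out one coordinate -/

lemma lint_update {n : ℕ} (ν : Measure ℝ) [IsProbabilityMeasure ν] (i : Fin n)
    {F : (Fin n → ℝ) → ℝ≥0∞} (hF : Measurable F) :
    (∫⁻ V, F V ∂(Measure.pi fun _ => ν)) =
      ∫⁻ V, ∫⁻ t, F (Function.update V i t) ∂ν ∂(Measure.pi fun _ => ν) := by
  classical
  have hF' : Measurable (fun V : Fin n → ℝ => ∫⁻ t, F (Function.update V i t) ∂ν) := by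
    have : Measurable (fun p : (Fin n → ℝ) × ℝ => F (Function.update p.1 i p.2)) := by
      apply hF.comp
      exact measurable_update'
    exact this.lintegral_prod_right'
  rw [lintegral_eq_lmarginal_univ (μ := fun _ : Fin n => ν) (f := F) 0,
    lintegral_eq_lmarginal_univ (μ := fun _ : Fin n => ν)
      (f := fun V : Fin n → ℝ => ∫⁻ t, F (Function.update V i t) ∂ν) 0]
  rw [lmarginal_erase' _ hF (Finset.mem_univ i), lmarginal_erase' _ hF' (Finset.mem_univ i)]
  congr 1
  funext V
  simp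

/-- Independence of one coordinate. -/
lemma lint_update_mul {n : ℕ} (ν : Measure ℝ) [IsProbabilityMeasure ν] (i : Fin n)
    {P Q : (Fin n → ℝ) → ℝ≥0∞} (hP : Measurable P) (hQ : Measurable Q)
    (hPi : ∀ V t, P (Function.update V i t) = P V) :
    (∫⁻ V, P V * Q V ∂(Measure.pi fun _ => ν)) =
      ∫⁻ V, P V * ∫⁻ t, Q (Function.update V i t) ∂ν ∂(Measure.pi fun _ => ν) := by
  rw [lint_update ν i (F := fun V => P V * Q V) (hP.mul hQ)]
  apply lintegral_congr
  intro V
  have : Measurable (fun t : ℝ => Q (Function.update V i t)) :=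
    hQ.comp (measurable_update V)
  simp only [hPi]
  rw [lintegral_const_mul _ this]

/-! ### The uniform law -/

/-- The uniform law on `[-a, a]`. -/
noncomputable def unif (a : ℝ) : Measure ℝ :=
  ENNReal.ofReal (1 / (2 * a)) • volume.restrict (Icc (-a) a)

lemma unif_prob {a : ℝ} (ha : 0 < a) : IsProbabilityMeasure (unif a) := by
  constructor
  unfold unif
  rw [Measure.smul_apply, vol_box, smul_eq_mul, ← ENNReal.ofReal_mul (by positivity)]
  rw [show 1 / (2 * a) * (2 * a) = 1 by field_simp]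
  simp

lemma lint_unif (a : ℝ) (f : ℝ → ℝ≥0∞) :
    (∫⁻ t, f t ∂(unif a)) = ENNReal.ofReal (1 / (2 * a)) * ∫⁻ t in Icc (-a) a, f t := by
  unfold unif
  rw [lintegral_smul_measure, smul_eq_mul]

/-- The transfer kernel. -/
noncomputable def Kop (a c : ℝ) (f : ℝ → ℝ≥0∞) : ℝ → ℝ≥0∞ := Aop a c (Jop f)

lemma Kop_apply (a c : ℝ) (f : ℝ → ℝ≥0∞) (g : ℝ) :
    Kop a c f g = ∫⁻ t, ENNReal.ofReal |(t - c - g)⁻¹| * f (t - c - g)⁻¹ ∂(unif a) := by
  rw [lint_unif]; rfl

lemma measurable_Kop {f : ℝ → ℝ≥0∞} (hm : Measurable f) (a c : ℝ) : Measurable (Kop a c f) :=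
  measurable_Aop (measurable_Jop hm) a c

lemma measurable_Kop_iter {f : ℝ → ℝ≥0∞} (hm : Measurable f) (a c : ℝ) (N : ℕ) :
    Measurable ((Kop a c)^[N] f) := by
  induction N generalizing f with
  | zero => exact hm
  | succ N ih =>
    rw [Function.iterate_succ_apply]
    exact ih (measurable_Kop hm a c)

lemma sqn_Kop {f : ℝ → ℝ≥0∞} (hm : Measurable f) {a : ℝ} (ha : 0 < a) (c : ℝ) :
    sqn (Kop a c f) ≤ sqn f := by
  have := loss (measurable_Jop hm) ha c
  rw [sqn_Jop] at this
  exact le_trans le_self_add this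

lemma Kop_point {f : ℝ → ℝ≥0∞} (hm : Measurable f) {a : ℝ} (ha : 0 < a) (c g : ℝ) :
    Kop a c f g ^ 2 ≤ ENNReal.ofReal (1 / (2 * a)) * sqn f := by
  have hJ := measurable_Jop hm
  have hmg : Measurable (fun v : ℝ => Jop f (v - c - g)) :=
    hJ.comp ((measurable_id.sub_const c).sub_const g)
  refine (box_CS hmg ha).trans ?_
  gcongr
  calc (∫⁻ v in Icc (-a) a, Jop f (v - c - g) ^ 2) ≤ ∫⁻ v, Jop f (v - c - g) ^ 2 :=
        setLIntegral_le_lintegral _ _
    _ = ∫⁻ v, Jop f (v - (c + g)) ^ 2 := by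
        apply lintegral_congr; intro v; rw [sub_sub]
    _ = ∫⁻ v, Jop f v ^ 2 :=
        lintegral_sub_right_eq_self (fun v => Jop f v ^ 2) (c + g)
    _ = sqn f := sqn_Jop f

/-- Decay of the iterates. -/
lemma iter_decay {a : ℝ} (ha : 0 < a) : ∃ q : ℝ, 0 < q ∧ q < 1 ∧
    ∀ (c : ℝ) (f : ℝ → ℝ≥0∞), Measurable f → ∀ (N : ℕ) (g : ℝ),
      ((Kop a c)^[N + 1] f g) ^ 2 ≤
        ENNReal.ofReal (1 / (2 * a)) * (ENNReal.ofReal q ^ (N / 2) * sqn f) := by
  obtain ⟨q, q0, q1, hq⟩ := contraction ha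
  refine ⟨q, q0, q1, ?_⟩
  intro c f hf N g
  have h2 : ∀ (f : ℝ → ℝ≥0∞), Measurable f →
      sqn (Kop a c (Kop a c f)) ≤ ENNReal.ofReal q * sqn f := by
    intro f hf
    have := hq c (Jop f) (measurable_Jop hf)
    rw [sqn_Jop] at this
    exact this
  have h3 : ∀ (m : ℕ) (f : ℝ → ℝ≥0∞), Measurable f →
      sqn ((Kop a c)^[2 * m] f) ≤ ENNReal.ofReal q ^ m * sqn f := by
    intro m
    induction m with
    | zero => intro f _; simp
    | succ m ih =>
      intro f hf
      have e : 2 * (m + 1) = 2 * m + 1 + 1 := by ring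
      rw [e, Function.iterate_succ_apply, Function.iterate_succ_apply]
      refine (ih _ (measurable_Kop (measurable_Kop hf a c) a c)).trans ?_
      calc ENNReal.ofReal q ^ m * sqn (Kop a c (Kop a c f))
          ≤ ENNReal.ofReal q ^ m * (ENNReal.ofReal q * sqn f) := by gcongr; exact h2 f hf
        _ = _ := by ring
  have h4 : sqn ((Kop a c)^[N] f) ≤ ENNReal.ofReal q ^ (N / 2) * sqn f := by
    rcases Nat.even_or_odd' N with ⟨m, rfl | rfl⟩
    · have : 2 * m / 2 = m := by omega
      rw [this]; exact h3 m f hf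
    · have : (2 * m + 1) / 2 = m := by omega
      rw [this, Function.iterate_succ_apply']
      exact (sqn_Kop (measurable_Kop_iter hf a c _) ha c).trans (h3 m f hf)
  rw [Function.iterate_succ_apply']
  exact (Kop_point (measurable_Kop_iter hf a c N) ha c g).trans (by gcongr)

/-! ### Continued fractions -/

/-- Left continued fractions. -/
noncomputable def gl (w : ℕ → ℝ) : ℕ → ℝ
  | 0 => 0
  | (j + 1) => (w j - gl w j)⁻¹

lemma gl_congr {w w' : ℕ → ℝ} : ∀ j : ℕ, (∀ i < j, w i = w' i) → gl w j = gl w' j := by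
  intro j
  induction j with
  | zero => intro _; rfl
  | succ j ih =>
    intro h
    simp only [gl]
    rw [h j (Nat.lt_succ_self j), ih (fun i hi => h i (Nat.lt_succ_of_lt hi))]

/-- The shifted potential as a sequence. -/
noncomputable def ex {n : ℕ} (z : ℝ) (V : Fin n → ℝ) (j : ℕ) : ℝ :=
  if h : j < n then V ⟨j, h⟩ - z else 0

lemma ex_update_ne {n : ℕ} (z : ℝ) (V : Fin n → ℝ) (i : Fin n) (t : ℝ) (j : ℕ)
    (h : j ≠ i.val) : ex z (Function.update V i t) j = ex z V j := by
  unfold ex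
  split_ifs with hj
  · rw [Function.update_of_ne]
    intro he
    apply h
    rw [← he]
  · rfl

lemma ex_update_self {n : ℕ} (z : ℝ) (V : Fin n → ℝ) (i : Fin n) (t : ℝ) :
    ex z (Function.update V i t) i.val = t - z := by
  unfold ex
  rw [dif_pos i.2]
  simp

lemma gl_update {n : ℕ} (z : ℝ) (V : Fin n → ℝ) (i : Fin n) (t : ℝ) (j : ℕ) (h : j ≤ i.val) :
    gl (ex z (Function.update V i t)) j = gl (ex z V) j := by
  apply gl_congr
  intro k hk
  exact ex_update_ne z V i t k (by omega)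

lemma measurable_ex {n : ℕ} (z : ℝ) (j : ℕ) : Measurable (fun V : Fin n → ℝ => ex z V j) := by
  unfold ex
  split_ifs with h
  · have h1 : Measurable (fun V : Fin n → ℝ => V ⟨j, h⟩) := measurable_pi_apply _
    exact h1.sub_const z
  · exact measurable_const

lemma measurable_gl {n : ℕ} (z : ℝ) (j : ℕ) :
    Measurable (fun V : Fin n → ℝ => gl (ex z V) j) := by
  induction j with
  | zero => exact measurable_const
  | succ j ih =>
    simp only [gl]
    exact ((measurable_ex z j).sub ih).inv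

/-- The product of continued fractions. -/
noncomputable def PP {n : ℕ} (z : ℝ) (x N : ℕ) (V : Fin n → ℝ) : ℝ≥0∞ :=
  ∏ j ∈ Finset.range N, ENNReal.ofReal |gl (ex z V) (x + j + 1)|

lemma measurable_PP {n : ℕ} (z : ℝ) (x N : ℕ) : Measurable (PP (n := n) z x N) := by
  unfold PP
  apply Finset.measurable_prod
  intro j _
  exact (measurable_gl z _).abs.ennreal_ofReal

lemma PP_update {n : ℕ} (z : ℝ) (x N : ℕ) (V : Fin n → ℝ) (i : Fin n) (t : ℝ)
    (h : x + N ≤ i.val) : PP z x N (Function.update V i t) = PP z x N V := by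
  unfold PP
  apply Finset.prod_congr rfl
  intro j hj
  rw [Finset.mem_range] at hj
  rw [gl_update z V i t _ (by omega)]

lemma claimA {n : ℕ} {a : ℝ} (ha : 0 < a) (z : ℝ) (x : ℕ) : ∀ (N : ℕ) (F : ℝ → ℝ≥0∞),
    Measurable F → x + N ≤ n →
    (∫⁻ V : Fin n → ℝ, PP z x N V * F (gl (ex z V) (x + N)) ∂(Measure.pi fun _ => unif a)) =
      ∫⁻ V : Fin n → ℝ, ((Kop a z)^[N] F) (gl (ex z V) x) ∂(Measure.pi fun _ => unif a) := by
  have := unif_prob ha
  intro N
  induction N with
  | zero =>
    intro F _ _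
    simp [PP]
  | succ N ih =>
    intro F hF hn
    have hi : x + N < n := by omega
    rw [Function.iterate_succ_apply, ← ih (Kop a z F) (measurable_Kop hF a z) (by omega)]
    have e1 : ∀ V : Fin n → ℝ, PP z x (N + 1) V * F (gl (ex z V) (x + (N + 1))) =
        PP z x N V * (ENNReal.ofReal |gl (ex z V) (x + N + 1)| *
          F (gl (ex z V) (x + N + 1))) := by
      intro V
      unfold PP
      rw [Finset.prod_range_succ, mul_assoc]
      rfl
    simp only [e1]
    rw [lint_update_mul (unif a) ⟨x + N, hi⟩ (measurable_PP z x N)]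
    · apply lintegral_congr
      intro V
      congr 1
      rw [Kop_apply]
      apply lintegral_congr
      intro t
      have : gl (ex z (Function.update V ⟨x + N, hi⟩ t)) (x + N + 1) =
          (t - z - gl (ex z V) (x + N))⁻¹ := by
        rw [gl, gl_update z V ⟨x + N, hi⟩ t (x + N) le_rfl,
          ex_update_self z V ⟨x + N, hi⟩ t]
      rw [this]
    · exact ((measurable_gl z _).abs.ennreal_ofReal).mul (hF.comp (measurable_gl z _))
    · intro V t
      exact PP_update z x N V _ t (by simp)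

end P365SH
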