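import Vale.Agent.P365.SH.L1c

/-!
P365 T1, the shield, part 4: fractional moments of the one dimensional Green function.
-/

open MeasureTheory Set
open scoped ENNReal

namespace P365SH

/-- The fractional inverse. -/
noncomputable def fi (x : ℝ) : ℝ≥0∞ := (ENNReal.ofReal |x⁻¹|) ^ (1 / 4 : ℝ)

lemma measurable_fi : Measurable fi := by
  unfold fi
  exact (measurable_inv.abs.ennreal_ofReal).pow_const _

lemma frac_one : (∫⁻ x in Ioo (0 : ℝ) 1, fi x) < ⊤ := by
  have h := (intervalIntegral.integrableOn_Ioo_rpow_iff (s := -(1 / 4)) (t := 1)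
    (by norm_num)).2 (by norm_num)
  have h2 := h.hasFiniteIntegral
  rw [HasFiniteIntegral] at h2
  refine lt_of_le_of_lt ?_ h2
  apply setLIntegral_mono' measurableSet_Ioo
  intro x hx
  have hx0 : 0 < x := hx.1
  unfold fi
  rw [abs_of_pos (inv_pos.2 hx0), ENNReal.ofReal_rpow_of_pos (inv_pos.2 hx0),
    Real.inv_rpow hx0.le, ← Real.rpow_neg hx0.le]
  rw [Real.enorm_eq_ofReal (Real.rpow_nonneg hx0.le _)]

lemma fi_neg (x : ℝ) : fi (-x) = fi x := by
  unfold fi; rw [inv_neg, abs_neg]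

lemma fi_le (x : ℝ) : fi x ≤ 1 + (Ioo (0 : ℝ) 1).indicator fi x +
    (Ioo (0 : ℝ) 1).indicator fi (-x) := by
  by_cases h1 : 1 ≤ |x|
  · have : fi x ≤ 1 := by
      unfold fi
      rw [abs_inv]
      calc (ENNReal.ofReal |x|⁻¹) ^ (1 / 4 : ℝ) ≤ (1 : ℝ≥0∞) ^ (1 / 4 : ℝ) := by
            gcongr
            rw [← ENNReal.ofReal_one]
            exact ENNReal.ofReal_le_ofReal (inv_le_one_of_one_le₀ h1)
        _ = 1 := ENNReal.one_rpow _
    rw [add_assoc]
    exact this.trans le_self_add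
  · push Not at h1
    rw [abs_lt] at h1
    rcases lt_trichotomy x 0 with h | h | h
    · have hm : -x ∈ Ioo (0 : ℝ) 1 := ⟨by linarith, by linarith [h1.1]⟩
      rw [indicator_of_mem hm, fi_neg]
      exact le_add_self
    · subst h
      have : fi 0 = 0 := by simp [fi]
      rw [this]; exact zero_le
    · have hm : x ∈ Ioo (0 : ℝ) 1 := ⟨h, h1.2⟩
      rw [indicator_of_mem hm]
      calc fi x ≤ 1 + fi x := le_add_self
        _ ≤ _ := le_self_add

lemma frac_unif (a : ℝ) : ∃ B : ℝ≥0∞, B ≠ ⊤ ∧ ∀ α : ℝ,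
    (∫⁻ t, fi (t - α) ∂(unif a)) ≤ B := by
  set B0 : ℝ≥0∞ := ∫⁻ x in Ioo (0 : ℝ) 1, fi x with hB0
  set κ : ℝ≥0∞ := ENNReal.ofReal (1 / (2 * a)) with hκ
  refine ⟨κ * (ENNReal.ofReal (2 * a) + B0 + B0), ?_, ?_⟩
  · apply ENNReal.mul_ne_top ENNReal.ofReal_ne_top
    simp [frac_one.ne, hB0]
    exact ENNReal.mul_ne_top (by simp) ENNReal.ofReal_ne_top
  intro α
  rw [lint_unif]
  have hmi : Measurable ((Ioo (0 : ℝ) 1).indicator fi) :=
    measurable_fi.indicator measurableSet_Ioo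
  have e0 : (∫⁻ x, (Ioo (0 : ℝ) 1).indicator fi x) = B0 := by
    rw [lintegral_indicator measurableSet_Ioo]
  gcongr
  calc (∫⁻ t in Icc (-a) a, fi (t - α))
      ≤ ∫⁻ t in Icc (-a) a, (1 + (Ioo (0 : ℝ) 1).indicator fi (t - α) +
          (Ioo (0 : ℝ) 1).indicator fi (-(t - α))) := by
        apply lintegral_mono; intro t; exact fi_le _
    _ = ENNReal.ofReal (2 * a) + (∫⁻ t in Icc (-a) a, (Ioo (0 : ℝ) 1).indicator fi (t - α)) +
          ∫⁻ t in Icc (-a) a, (Ioo (0 : ℝ) 1).indicator fi (-(t - α)) := by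
        rw [lintegral_add_right, lintegral_add_left measurable_const, lintegral_const, vol_box,
          one_mul]
        exact hmi.comp ((measurable_id.sub_const α).neg)
    _ ≤ ENNReal.ofReal (2 * a) + B0 + B0 := by
        gcongr
        · calc _ ≤ ∫⁻ t, (Ioo (0 : ℝ) 1).indicator fi (t - α) := setLIntegral_le_lintegral _ _
            _ = B0 := by
              rw [lintegral_sub_right_eq_self (fun t => (Ioo (0 : ℝ) 1).indicator fi t) α, e0]
        · calc _ ≤ ∫⁻ t, (Ioo (0 : ℝ) 1).indicator fi (-(t - α)) := setLIntegral_le_lintegral _ _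
            _ = B0 := by
              rw [lintegral_sub_right_eq_self (fun t => (Ioo (0 : ℝ) 1).indicator fi (-t)) α,
                lintegral_neg_eq_self (fun t => (Ioo (0 : ℝ) 1).indicator fi t), e0]

/-- The test function. -/
noncomputable def F0 (g : ℝ) : ℝ≥0∞ := ENNReal.ofReal ((1 + |g|) ^ (-(3 / 4) : ℝ))

lemma measurable_F0 : Measurable F0 := by
  unfold F0
  exact ((measurable_const.add measurable_id.abs).pow_const _).ennreal_ofReal

lemma F0_pos (g : ℝ) : 0 < (1 + |g|) ^ (-(3 / 4) : ℝ) :=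
  Real.rpow_pos_of_pos (by positivity) _

lemma F0_ne_zero (g : ℝ) : F0 g ≠ 0 := by
  unfold F0
  simp only [ne_eq, ENNReal.ofReal_eq_zero, not_le]
  exact F0_pos g

lemma F0_ne_top (g : ℝ) : F0 g ≠ ⊤ := ENNReal.ofReal_ne_top

lemma sqn_F0 : sqn F0 < ⊤ := by
  have h := finite_integral_one_add_norm (E := ℝ) (μ := volume) (r := 3 / 2)
    (by rw [Module.finrank_self]; norm_num)
  refine lt_of_le_of_lt (le_of_eq ?_) h
  unfold sqn F0
  apply lintegral_congr
  intro g
  rw [← ENNReal.ofReal_pow (F0_pos g).le, ← Real.rpow_natCast, ← Real.rpow_mul (by positivity)]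
  norm_num

lemma F0_rpow (g : ℝ) : (F0 g) ^ (-(1 / 3) : ℝ) ≤ 1 + (ENNReal.ofReal |g|) ^ (1 / 4 : ℝ) := by
  have e : (F0 g) ^ (-(1 / 3) : ℝ) = (1 + ENNReal.ofReal |g|) ^ (1 / 4 : ℝ) := by
    have h1 : (1 : ℝ≥0∞) + ENNReal.ofReal |g| = ENNReal.ofReal (1 + |g|) := by
      rw [ENNReal.ofReal_add (by norm_num) (abs_nonneg _)]; simp
    rw [h1]
    unfold F0
    rw [ENNReal.ofReal_rpow_of_pos (F0_pos g), ENNReal.ofReal_rpow_of_pos (by positivity),
      ← Real.rpow_mul (by positivity)]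
    norm_num
  rw [e]
  calc (1 + ENNReal.ofReal |g|) ^ (1 / 4 : ℝ)
      ≤ 1 ^ (1 / 4 : ℝ) + (ENNReal.ofReal |g|) ^ (1 / 4 : ℝ) :=
        ENNReal.rpow_add_le_add_rpow _ _ (by norm_num) (by norm_num)
    _ = _ := by rw [ENNReal.one_rpow]

/-- Fractional moments of the product of continued fractions. -/
lemma PP_frac {a : ℝ} (ha : 0 < a) : ∃ C θ : ℝ, 0 < C ∧ 0 < θ ∧ θ < 1 ∧
    ∀ (n : ℕ) (z : ℝ) (x N : ℕ), x + N ≤ n →
      (∫⁻ V : Fin n → ℝ, (PP z x N V) ^ (1 / 4 : ℝ) ∂(Measure.pi fun _ => unif a)) ≤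
        ENNReal.ofReal (C * θ ^ N) := by
  obtain ⟨q, q0, q1, hq⟩ := iter_decay ha
  obtain ⟨B, hBt, hB⟩ := frac_unif a
  have hprob := unif_prob ha
  set κ : ℝ≥0∞ := ENNReal.ofReal (1 / (2 * a)) with hκ
  set D : ℝ≥0∞ := (κ * sqn F0) ^ (1 / 8 : ℝ) * (1 + B) ^ (3 / 4 : ℝ) with hD
  have hDt : D ≠ ⊤ := by
    rw [hD]
    apply ENNReal.mul_ne_top
    · apply ENNReal.rpow_ne_top_of_nonneg (by norm_num)
      exact ENNReal.mul_ne_top ENNReal.ofReal_ne_top sqn_F0.ne
    · apply ENNReal.rpow_ne_top_of_nonneg (by norm_num)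
      exact ENNReal.add_ne_top.2 ⟨by simp, hBt⟩
  set θ : ℝ := q ^ (1 / 16 : ℝ) with hθ
  have hθ0 : 0 < θ := Real.rpow_pos_of_pos q0 _
  have hθ1 : θ < 1 := Real.rpow_lt_one q0.le q1 (by norm_num)
  refine ⟨(D.toReal + 1) * (θ ^ 2)⁻¹, θ, by positivity, hθ0, hθ1, ?_⟩
  intro n z x N hN
  set μ : Measure (Fin n → ℝ) := Measure.pi fun _ => unif a with hμ
  rcases Nat.eq_zero_or_pos N with rfl | hNpos
  · simp only [PP, Finset.range_zero, Finset.prod_empty, ENNReal.one_rpow, lintegral_const,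
      measure_univ, mul_one, pow_zero]
    rw [← ENNReal.ofReal_one]
    apply ENNReal.ofReal_le_ofReal
    have h1 : (1 : ℝ) ≤ (θ ^ 2)⁻¹ := by
      rw [one_le_inv₀ (by positivity)]
      exact pow_le_one₀ hθ0.le hθ1.le
    have h2 : (1 : ℝ) ≤ D.toReal + 1 := by
      have := ENNReal.toReal_nonneg (a := D); linarith
    nlinarith
  · obtain ⟨M, rfl⟩ : ∃ M, N = M + 1 := ⟨N - 1, by omega⟩
    set m := M / 2 with hm
    -- the first factor
    have hA : (∫⁻ V, PP z x (M + 1) V * F0 (gl (ex z V) (x + (M + 1))) ∂μ) ≤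
        (κ * (ENNReal.ofReal q ^ m * sqn F0)) ^ (1 / 2 : ℝ) := by
      rw [claimA ha z x (M + 1) F0 measurable_F0 hN]
      calc _ ≤ ∫⁻ _V : Fin n → ℝ, (κ * (ENNReal.ofReal q ^ m * sqn F0)) ^ (1 / 2 : ℝ) ∂μ := by
            apply lintegral_mono
            intro V
            have := hq z F0 measurable_F0 M (gl (ex z V) x)
            calc (Kop a z)^[M + 1] F0 (gl (ex z V) x)
                = (((Kop a z)^[M + 1] F0 (gl (ex z V) x)) ^ 2) ^ (1 / 2 : ℝ) := by
                  rw [← ENNReal.rpow_natCast, ← ENNReal.rpow_mul]; norm_num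
              _ ≤ _ := ENNReal.rpow_le_rpow this (by norm_num)
        _ = _ := by simp
    have hBn : (∫⁻ V, (F0 (gl (ex z V) (x + (M + 1)))) ^ (-(1 / 3) : ℝ) ∂μ) ≤ 1 + B := by
      have hi : x + M < n := by omega
      calc _ ≤ ∫⁻ V : Fin n → ℝ, (1 + (ENNReal.ofReal |gl (ex z V) (x + (M + 1))|) ^ (1 / 4 : ℝ))
            ∂μ := by
            apply lintegral_mono; intro V; exact F0_rpow _
        _ = 1 + ∫⁻ V : Fin n → ℝ, (ENNReal.ofReal |gl (ex z V) (x + (M + 1))|) ^ (1 / 4 : ℝ) ∂μ := by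
            rw [lintegral_add_left measurable_const]; simp
        _ ≤ 1 + B := by
            gcongr
            rw [lint_update (unif a) ⟨x + M, hi⟩
              (((measurable_gl z _).abs.ennreal_ofReal).pow_const _)]
            calc _ ≤ ∫⁻ _V : Fin n → ℝ, B ∂μ := by
                  apply lintegral_mono
                  intro V
                  refine le_trans (le_of_eq ?_) (hB (z + gl (ex z V) (x + M)))
                  apply lintegral_congr
                  intro t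
                  have : gl (ex z (Function.update V ⟨x + M, hi⟩ t)) (x + (M + 1)) =
                      (t - z - gl (ex z V) (x + M))⁻¹ := by
                    rw [← add_assoc, gl, gl_update z V ⟨x + M, hi⟩ t (x + M) le_rfl,
                      ex_update_self z V ⟨x + M, hi⟩ t]
                  rw [this]
                  unfold fi
                  rw [sub_sub]
              _ = B := by simp
    let fF : (Fin n → ℝ) → ℝ≥0∞ :=
      fun V => (PP z x (M + 1) V * F0 (gl (ex z V) (x + (M + 1)))) ^ (1 / 4 : ℝ)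
    let gF : (Fin n → ℝ) → ℝ≥0∞ := fun V => (F0 (gl (ex z V) (x + (M + 1)))) ^ (-(1 / 4) : ℝ)
    have hH := ENNReal.lintegral_mul_le_Lp_mul_Lq μ (p := 4) (q := 4 / 3)
      (by constructor <;> norm_num) (f := fF) (g := gF)
      ((((measurable_PP z x (M + 1)).mul (measurable_F0.comp (measurable_gl z _))).pow_const
        _).aemeasurable)
      (((measurable_F0.comp (measurable_gl z _)).pow_const _).aemeasurable)
    have e1 : ∀ V : Fin n → ℝ, (fF * gF) V = (PP z x (M + 1) V) ^ (1 / 4 : ℝ) := by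
      intro V
      simp only [Pi.mul_apply, fF, gF]
      rw [ENNReal.mul_rpow_of_nonneg _ _ (by norm_num : (0 : ℝ) ≤ 1 / 4), mul_assoc,
        ← ENNReal.rpow_add _ _ (F0_ne_zero _) (F0_ne_top _)]
      norm_num
    have e2 : ∀ V : Fin n → ℝ, (fF V) ^ (4 : ℝ) =
        PP z x (M + 1) V * F0 (gl (ex z V) (x + (M + 1))) := by
      intro V
      simp only [fF]
      rw [← ENNReal.rpow_mul]; norm_num
    have e3 : ∀ V : Fin n → ℝ, (gF V) ^ (4 / 3 : ℝ) =
        (F0 (gl (ex z V) (x + (M + 1)))) ^ (-(1 / 3) : ℝ) := by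
      intro V
      simp only [gF]
      rw [← ENNReal.rpow_mul]; norm_num
    simp only [e1, e2, e3] at hH
    refine hH.trans ?_
    have hfin : (∫⁻ V, PP z x (M + 1) V * F0 (gl (ex z V) (x + (M + 1))) ∂μ) ^ (1 / 4 : ℝ) *
        (∫⁻ V, (F0 (gl (ex z V) (x + (M + 1)))) ^ (-(1 / 3) : ℝ) ∂μ) ^ (1 / (4 / 3) : ℝ) ≤
        D * ENNReal.ofReal (θ ^ (2 * m)) := by
      calc _ ≤ ((κ * (ENNReal.ofReal q ^ m * sqn F0)) ^ (1 / 2 : ℝ)) ^ (1 / 4 : ℝ) *
            (1 + B) ^ (1 / (4 / 3) : ℝ) := by gcongr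
        _ = D * ENNReal.ofReal (θ ^ (2 * m)) := by
            rw [← ENNReal.rpow_mul, hD]
            have h1 : κ * (ENNReal.ofReal q ^ m * sqn F0) = (κ * sqn F0) * ENNReal.ofReal q ^ m := by
              ring
            rw [h1, ENNReal.mul_rpow_of_nonneg _ _ (by norm_num)]
            have h2 : (ENNReal.ofReal q ^ m) ^ (1 / 2 * (1 / 4) : ℝ) =
                ENNReal.ofReal (θ ^ (2 * m)) := by
              rw [← ENNReal.ofReal_pow q0.le, ENNReal.ofReal_rpow_of_pos (by positivity)]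
              congr 1
              rw [hθ, ← Real.rpow_natCast, ← Real.rpow_natCast, ← Real.rpow_mul q0.le,
                ← Real.rpow_mul q0.le]
              congr 1
              push_cast
              ring
            rw [h2]
            norm_num
            ring
    refine hfin.trans ?_
    have hDD : D * ENNReal.ofReal (θ ^ (2 * m)) = ENNReal.ofReal (D.toReal * θ ^ (2 * m)) := by
      rw [ENNReal.ofReal_mul ENNReal.toReal_nonneg, ENNReal.ofReal_toReal hDt]
    rw [hDD]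
    apply ENNReal.ofReal_le_ofReal
    have hexp : θ ^ (2 * m + 2) ≤ θ ^ (M + 1) := by
      apply pow_le_pow_of_le_one hθ0.le hθ1.le
      omega
    have h3 : θ ^ (2 * m) ≤ (θ ^ 2)⁻¹ * θ ^ (M + 1) := by
      rw [inv_mul_eq_div, le_div_iff₀ (by positivity), ← pow_add]
      exact hexp
    calc D.toReal * θ ^ (2 * m) ≤ (D.toReal + 1) * ((θ ^ 2)⁻¹ * θ ^ (M + 1)) := by
          apply mul_le_mul _ h3 (by positivity) (by positivity)
          linarith
      _ = _ := by ring

end P365SH
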