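import Vale.Agent.P365.SH.L1d

/-!
P365 T1, the shield, part 5: the one dimensional Green function as a matrix inverse, and its
fractional moments.
-/

open MeasureTheory Set Matrix
open scoped ENNReal

namespace P365SH

/-- The path adjacency matrix. -/
def A1 (n : ℕ) : Matrix (Fin n) (Fin n) ℝ := fun i j =>
  (if j.val = i.val + 1 then 1 else 0) + (if i.val = j.val + 1 then 1 else 0)

/-- The one dimensional Dirichlet operator minus the energy. -/
noncomputable def M1 {n : ℕ} (z : ℝ) (V : Fin n → ℝ) : Matrix (Fin n) (Fin n) ℝ :=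
  Matrix.diagonal (fun i => V i - z) + A1 n

lemma A1_symm {n : ℕ} (i j : Fin n) : A1 n i j = A1 n j i := by
  unfold A1; rw [add_comm]

lemma M1_transpose {n : ℕ} (z : ℝ) (V : Fin n → ℝ) : (M1 z V)ᵀ = M1 z V := by
  unfold M1
  rw [Matrix.transpose_add, Matrix.diagonal_transpose]
  congr 1
  ext i j
  exact A1_symm j i

lemma G1_symm {n : ℕ} (z : ℝ) (V : Fin n → ℝ) (x b : Fin n) :
    (M1 z V)⁻¹ x b = (M1 z V)⁻¹ b x := by
  have : ((M1 z V)⁻¹)ᵀ = (M1 z V)⁻¹ := by
    rw [Matrix.transpose_nonsing_inv, M1_transpose]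
  calc (M1 z V)⁻¹ x b = ((M1 z V)⁻¹)ᵀ b x := rfl
    _ = _ := by rw [this]

/-- The inverse entry as a function of one diagonal entry. -/
lemma inv_diag {ι : Type*} [Fintype ι] [DecidableEq ι] (M : Matrix ι ι ℝ) (b : ι) (t : ℝ) :
    (M + t • Matrix.single b b (1 : ℝ))⁻¹ b b =
      (t * M.adjugate b b + M.det)⁻¹ * M.adjugate b b := by
  set Mt := M + t • Matrix.single b b (1 : ℝ) with hMt
  have hrow : ∀ r : ι → ℝ, Mt.updateRow b r = M.updateRow b r := by
    intro r
    ext i j
    by_cases hi : i = b
    · subst hi; simp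
    · rw [Matrix.updateRow_ne hi, Matrix.updateRow_ne hi, hMt]
      simp [Ne.symm hi]
  have h1 : Mt.adjugate b b = M.adjugate b b := by
    rw [Matrix.adjugate_apply, Matrix.adjugate_apply, hrow]
  have h2 : Mt.det = t * M.adjugate b b + M.det := by
    have e : Mt = M.updateRow b (t • Pi.single b 1 + M b) := by
      ext i j
      by_cases hi : i = b
      · subst hi
        simp [hMt, Matrix.single_apply, Pi.single_apply, add_comm, eq_comm]
      · rw [Matrix.updateRow_ne hi, hMt]
        simp [Ne.symm hi]
    rw [e, Matrix.det_updateRow_add, Matrix.det_updateRow_smul, Matrix.updateRow_eq_self,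
      Matrix.adjugate_apply]
  rw [Matrix.inv_def, Matrix.smul_apply, smul_eq_mul, h1, h2, Ring.inverse_eq_inv']

lemma M1_update {n : ℕ} (z : ℝ) (V : Fin n → ℝ) (b : Fin n) (t : ℝ) :
    M1 z (Function.update V b t) = M1 z (Function.update V b 0) + t • Matrix.single b b (1 : ℝ) := by
  unfold M1
  ext i j
  by_cases hij : i = j
  · subst hij
    by_cases hb : i = b
    · subst hb; simp; ring
    · simp [hb, Ne.symm hb]
  · have : ¬(b = i ∧ b = j) := by
      rintro ⟨h1, h2⟩; exact hij (h1.symm.trans h2)
    simp [hij, this]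

lemma fi_inv_le (D R t : ℝ) : (ENNReal.ofReal |(t * D + R)⁻¹ * D|) ^ (1 / 4 : ℝ) ≤
    fi (t - (-(R / D))) := by
  by_cases hD : D = 0
  · subst hD; simp
  · unfold fi
    have : (t * D + R)⁻¹ * D = (t - (-(R / D)))⁻¹ := by
      rw [sub_neg_eq_add]
      have : t * D + R = (t + R / D) * D := by field_simp
      rw [this, mul_inv, mul_assoc, inv_mul_cancel₀ hD, mul_one]
    rw [this]

/-! ### The recursion -/

/-- A vector extended by zero. -/
noncomputable def ext0 {n : ℕ} (u : Fin n → ℝ) (j : ℕ) : ℝ := if h : j < n then u ⟨j, h⟩ else 0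

lemma sum_shift {n : ℕ} (u : Fin n → ℝ) (m : ℕ) :
    (∑ k : Fin n, (if k.val = m then (1 : ℝ) else 0) * u k) = ext0 u m := by
  unfold ext0
  split_ifs with h
  · rw [Finset.sum_eq_single (⟨m, h⟩ : Fin n)]
    · simp
    · intro k _ hk
      rw [if_neg]
      · simp
      · intro he
        apply hk
        exact Fin.ext he
    · intro hh; exact absurd (Finset.mem_univ _) hh
  · apply Finset.sum_eq_zero
    intro k _
    rw [if_neg]
    · simp
    · intro he; apply h; rw [← he]; exact k.2

lemma mulVec_row {n : ℕ} (z : ℝ) (V : Fin n → ℝ) (u : Fin n → ℝ) (j : Fin n) :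
    (M1 z V).mulVec u j = (V j - z) * u j + ext0 u (j.val + 1) +
      (if 1 ≤ j.val then ext0 u (j.val - 1) else 0) := by
  unfold M1
  rw [Matrix.add_mulVec, Pi.add_apply, Matrix.mulVec_diagonal, add_assoc]
  congr 1
  unfold Matrix.mulVec dotProduct A1
  simp only [add_mul, Finset.sum_add_distrib]
  congr 1
  · exact sum_shift u (j.val + 1)
  · split_ifs with h
    · rw [← sum_shift u (j.val - 1)]
      apply Finset.sum_congr rfl
      intro k _
      congr 1
      have : (j.val = k.val + 1) ↔ (k.val = j.val - 1) := by omega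
      simp only [this]
    · apply Finset.sum_eq_zero
      intro k _
      rw [if_neg (by omega)]
      simp

lemma recur {n : ℕ} (z : ℝ) (V : Fin n → ℝ) (u : Fin n → ℝ) (b : Fin n)
    (hu : ∀ j : Fin n, j.val < b.val → (M1 z V).mulVec u j = 0)
    (hne : ∀ j : ℕ, j < b.val → ex z V j - gl (ex z V) j ≠ 0) :
    ∀ j : ℕ, j < b.val → ext0 u j = - gl (ex z V) (j + 1) * ext0 u (j + 1) := by
  intro j
  induction j with
  | zero =>
    intro hj
    have hn : 0 < n := lt_trans hj b.2
    have h1 := hu ⟨0, hn⟩ hj
    rw [mulVec_row] at h1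
    have h2 := hne 0 hj
    simp only [gl, sub_zero] at h2
    have h3 : ex z V 0 = V ⟨0, hn⟩ - z := by unfold ex; rw [dif_pos hn]
    have h4 : ext0 u 0 = u ⟨0, hn⟩ := by unfold ext0; rw [dif_pos hn]
    simp only [zero_add, nonpos_iff_eq_zero, one_ne_zero, if_false, add_zero] at h1
    rw [← h3, ← h4] at h1
    simp only [gl, sub_zero]
    field_simp
    linarith
  | succ j ih =>
    intro hj
    have hn : j + 1 < n := lt_trans hj b.2
    have h0 := ih (by omega)
    have h1 := hu ⟨j + 1, hn⟩ hj
    rw [mulVec_row] at h1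
    have h2 := hne (j + 1) hj
    have h3 : ex z V (j + 1) = V ⟨j + 1, hn⟩ - z := by unfold ex; rw [dif_pos hn]
    have h4 : ext0 u (j + 1) = u ⟨j + 1, hn⟩ := by unfold ext0; rw [dif_pos hn]
    have h5 : (1 : ℕ) ≤ j + 1 := by omega
    simp only [h5, if_true, Nat.add_sub_cancel] at h1
    rw [← h3, ← h4, h0] at h1
    have h6 : gl (ex z V) (j + 1 + 1) = (ex z V (j + 1) - gl (ex z V) (j + 1))⁻¹ := by
      rw [gl]
    rw [h6]
    field_simp
    linarith

lemma G1_prod {n : ℕ} (z : ℝ) (V : Fin n → ℝ) (x b : Fin n) (hxb : x ≤ b)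
    (hdet : (M1 z V).det ≠ 0)
    (hne : ∀ j : ℕ, j < b.val → ex z V j - gl (ex z V) j ≠ 0) :
    ENNReal.ofReal |(M1 z V)⁻¹ x b| =
      PP z x.val (b.val - x.val) V * ENNReal.ofReal |(M1 z V)⁻¹ b b| := by
  set u : Fin n → ℝ := fun k => (M1 z V)⁻¹ k b with hu
  have hmul : M1 z V * (M1 z V)⁻¹ = 1 :=
    Matrix.mul_nonsing_inv _ (isUnit_iff_ne_zero.2 hdet)
  have hrow : ∀ j : Fin n, j.val < b.val → (M1 z V).mulVec u j = 0 := by
    intro j hj
    have : (M1 z V * (M1 z V)⁻¹) j b = 0 := by
      rw [hmul, Matrix.one_apply_ne]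
      intro he; rw [he] at hj; exact lt_irrefl _ hj
    rw [Matrix.mul_apply] at this
    exact this
  have hrec := recur z V u b hrow hne
  have key : ∀ N : ℕ, ∀ y : ℕ, y + N = b.val →
      ENNReal.ofReal |ext0 u y| = PP z y N V * ENNReal.ofReal |ext0 u b.val| := by
    intro N
    induction N with
    | zero =>
      intro y hy
      simp only [add_zero] at hy
      rw [hy]; simp [PP]
    | succ N ih =>
      intro y hy
      have h1 := ih (y + 1) (by omega)
      rw [hrec y (by omega), abs_mul, abs_neg, ENNReal.ofReal_mul (abs_nonneg _), h1, ← mul_assoc]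
      congr 1
      unfold PP
      rw [Finset.prod_range_succ']
      rw [mul_comm]
      congr 1
      · apply Finset.prod_congr rfl
        intro k _
        congr 4
        ring
  have hx : ext0 u x.val = (M1 z V)⁻¹ x b := by unfold ext0; rw [dif_pos x.2]
  have hb : ext0 u b.val = (M1 z V)⁻¹ b b := by unfold ext0; rw [dif_pos b.2]
  rw [← hx, ← hb]
  apply key
  have : x.val ≤ b.val := hxb
  omega

/-- Truncated distance. -/
def dd (x b : ℕ) : ℕ := (b - x) + (x - b)

lemma measurable_G1 {n : ℕ} (z : ℝ) (x b : Fin n) :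
    Measurable (fun V : Fin n → ℝ => (M1 z V)⁻¹ x b) := by
  have hc : Continuous (fun V : Fin n → ℝ => M1 z V) := by
    unfold M1
    apply Continuous.add _ continuous_const
    apply Continuous.matrix_diagonal
    apply continuous_pi
    intro i
    exact (continuous_apply i).sub continuous_const
  have h1 : Measurable (fun V : Fin n → ℝ => (M1 z V).det) := hc.matrix_det.measurable
  have h2 : Measurable (fun V : Fin n → ℝ => (M1 z V).adjugate x b) := by
    apply Continuous.measurable
    exact hc.matrix_adjugate.matrix_elem x b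
  have e : (fun V : Fin n → ℝ => (M1 z V)⁻¹ x b) =
      fun V => ((M1 z V).det)⁻¹ * (M1 z V).adjugate x b := by
    funext V
    rw [Matrix.inv_def, Ring.inverse_eq_inv', Matrix.smul_apply, smul_eq_mul]
  rw [e]
  exact h1.inv.mul h2

/-- Almost surely no denominator vanishes. -/
lemma ae_ne {n : ℕ} {a : ℝ} (ha : 0 < a) (z : ℝ) :
    ∀ᵐ V : Fin n → ℝ ∂(Measure.pi fun _ => unif a),
      ∀ j : ℕ, j < n → ex z V j - gl (ex z V) j ≠ 0 := by
  have hprob := unif_prob ha
  have h1 : ∀ j : Fin n, ∀ᵐ V : Fin n → ℝ ∂(Measure.pi fun _ => unif a),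
      ex z V j.val - gl (ex z V) j.val ≠ 0 := by
    intro j
    have hms : MeasurableSet {V : Fin n → ℝ | ex z V j.val - gl (ex z V) j.val = 0} :=
      measurableSet_eq_fun ((measurable_ex z j.val).sub (measurable_gl z j.val)) measurable_const
    rw [ae_iff]
    simp only [not_not]
    rw [← lintegral_indicator_one hms]
    rw [lint_update (unif a) j (measurable_one.indicator hms)]
    rw [lintegral_eq_zero_iff']
    · apply Filter.Eventually.of_forall
      intro V
      simp only [Pi.zero_apply]
      rw [lint_unif]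
      simp only [mul_eq_zero]
      right
      apply le_antisymm _ (zero_le)
      calc _ ≤ ∫⁻ t, ({z + gl (ex z V) j.val} : Set ℝ).indicator (1 : ℝ → ℝ≥0∞) t := by
            refine (setLIntegral_le_lintegral _ _).trans ?_
            apply lintegral_mono
            intro t
            simp only [indicator]
            split_ifs with hh h2
            · simp
            · exfalso
              apply h2
              simp only [mem_ofPred_eq] at hh
              rw [ex_update_self z V j t, gl_update z V j t j.val le_rfl] at hh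
              simp only [mem_singleton_iff]
              linarith
            · simp
            · simp
        _ = 0 := by
            rw [lintegral_indicator_one (measurableSet_singleton _)]
            simp
    · apply Measurable.aemeasurable
      have : Measurable (fun p : (Fin n → ℝ) × ℝ =>
          {V : Fin n → ℝ | ex z V j.val - gl (ex z V) j.val = 0}.indicator (1 : (Fin n → ℝ) → ℝ≥0∞)
            (Function.update p.1 j p.2)) := by
        apply (measurable_one.indicator hms).comp
        exact measurable_update'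
      exact this.lintegral_prod_right'
  filter_upwards [ae_all_iff.2 h1] with V hV j hj
  exact hV ⟨j, hj⟩

/-- **The fractional moment bound in one dimension**, uniform in the energy and the length. -/
theorem frac_moment_1d {a : ℝ} (ha : 0 < a) : ∃ C θ : ℝ, 0 < C ∧ 0 < θ ∧ θ < 1 ∧
    ∀ (n : ℕ) (z : ℝ) (x b : Fin n),
      (∫⁻ V : Fin n → ℝ, (ENNReal.ofReal |(M1 z V)⁻¹ x b|) ^ (1 / 4 : ℝ)
        ∂(Measure.pi fun _ => unif a)) ≤ ENNReal.ofReal (C * θ ^ (dd x.val b.val)) := by
  obtain ⟨C, θ, C0, θ0, θ1, hC⟩ := PP_frac ha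
  obtain ⟨B, hBt, hB⟩ := frac_unif a
  have hprob := unif_prob ha
  refine ⟨(B.toReal + 1) * C, θ, by positivity, θ0, θ1, ?_⟩
  intro n z
  have main : ∀ x b : Fin n, x ≤ b →
      (∫⁻ V : Fin n → ℝ, (ENNReal.ofReal |(M1 z V)⁻¹ x b|) ^ (1 / 4 : ℝ)
        ∂(Measure.pi fun _ => unif a)) ≤ ENNReal.ofReal ((B.toReal + 1) * C *
          θ ^ (dd x.val b.val)) := by
    intro x b hxb
    have hxb' : x.val ≤ b.val := hxb
    have hd : dd x.val b.val = b.val - x.val := by unfold dd; omega
    rw [hd]
    set N := b.val - x.val with hN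
    have hmG : Measurable (fun V : Fin n → ℝ =>
        (ENNReal.ofReal |(M1 z V)⁻¹ b b|) ^ (1 / 4 : ℝ)) :=
      ((measurable_G1 z b b).abs.ennreal_ofReal).pow_const _
    calc (∫⁻ V : Fin n → ℝ, (ENNReal.ofReal |(M1 z V)⁻¹ x b|) ^ (1 / 4 : ℝ)
          ∂(Measure.pi fun _ => unif a))
        ≤ ∫⁻ V : Fin n → ℝ, (PP z x.val N V) ^ (1 / 4 : ℝ) *
            (ENNReal.ofReal |(M1 z V)⁻¹ b b|) ^ (1 / 4 : ℝ) ∂(Measure.pi fun _ => unif a) := by
          apply lintegral_mono_ae
          filter_upwards [ae_ne ha z] with V hV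
          by_cases hdet : (M1 z V).det = 0
          · have : (M1 z V)⁻¹ x b = 0 := by
              rw [Matrix.inv_def, hdet]; simp
            rw [this]; simp
          · rw [G1_prod z V x b hxb hdet (fun j hj => hV j (lt_trans hj b.2)),
              ENNReal.mul_rpow_of_nonneg _ _ (by norm_num)]
      _ = ∫⁻ V : Fin n → ℝ, (PP z x.val N V) ^ (1 / 4 : ℝ) *
            ∫⁻ t, (ENNReal.ofReal |(M1 z (Function.update V b t))⁻¹ b b|) ^ (1 / 4 : ℝ)
              ∂(unif a) ∂(Measure.pi fun _ => unif a) := by
          apply lint_update_mul (unif a) b ((measurable_PP z x.val N).pow_const _) hmG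
          intro V t
          rw [PP_update z x.val N V b t (by omega)]
      _ ≤ ∫⁻ V : Fin n → ℝ, (PP z x.val N V) ^ (1 / 4 : ℝ) * B ∂(Measure.pi fun _ => unif a) := by
          apply lintegral_mono
          intro V
          simp only
          gcongr
          refine le_trans ?_ (hB (-((M1 z (Function.update V b 0)).det /
            (M1 z (Function.update V b 0)).adjugate b b)))
          apply lintegral_mono
          intro t
          simp only
          rw [M1_update, inv_diag]
          exact fi_inv_le _ _ _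
      _ = (∫⁻ V : Fin n → ℝ, (PP z x.val N V) ^ (1 / 4 : ℝ) ∂(Measure.pi fun _ => unif a)) * B := by
          rw [lintegral_mul_const _ ((measurable_PP z x.val N).pow_const _)]
      _ ≤ ENNReal.ofReal (C * θ ^ N) * B := by
          gcongr
          exact hC n z x.val N (by omega)
      _ ≤ ENNReal.ofReal (C * θ ^ N) * ENNReal.ofReal (B.toReal + 1) := by
          gcongr
          calc B = ENNReal.ofReal B.toReal := (ENNReal.ofReal_toReal hBt).symm
            _ ≤ _ := ENNReal.ofReal_le_ofReal (by linarith)
      _ = _ := by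
          rw [← ENNReal.ofReal_mul (by positivity)]
          congr 1
          ring
  intro x b
  rcases le_total x b with h | h
  · exact main x b h
  · have := main b x h
    simp only [G1_symm z _ b x] at this
    have hd : dd x.val b.val = dd b.val x.val := by unfold dd; omega
    rw [hd]
    exact this

end P365SH
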