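import Vale.Agent.P365.SH.Box

/-!
P365 T1, **the shield**: for every `lam > 0` and every energy `|E| < 4 + lam` there are real
potentials `Vs` on the boxes `[-r, r]²`, of size `≤ lam' < lam`, and a site `y` near the centre,
such that for every potential in a polynomially small window around `Vs` the Dirichlet Green
function of the box without `y` decays exponentially (with a polynomial prefactor), the
self-energy of `y` is of size `≤ lam'`, and, in the window, the same decay holds for the full box.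
-/

open MeasureTheory Set Matrix
open scoped ENNReal

namespace P365SH

open Vale.Agent.P365.C937

/-! ### Abstract perturbation lemmas -/

section Abs

variable {ι : Type*} [Fintype ι] [DecidableEq ι]

/-- Decay of the Green function with one site removed. -/
lemma removed_decay {M : Matrix ι ι ℝ} (hM : IsUnit M) {y : ι} {K : ℝ} (hK : 0 < K)
    (hy : K ≤ |M⁻¹ y y|) {w : ι → ι → ℝ} (hw0 : ∀ x b, 0 < w x b)
    (hw : ∀ x z b, w x z * w z b ≤ w x b) {C₀ : ℝ} (hC : 0 < C₀)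
    (hB : ∀ x b, |M⁻¹ x b| ≤ C₀ * w x b) (x b : {x // x ≠ y}) :
    |(M.submatrix (Subtype.val : {x // x ≠ y} → ι) Subtype.val)⁻¹ x b| ≤
      (C₀ + C₀ ^ 2 / K) * w x b := by
  have hyy : M⁻¹ y y ≠ 0 := by
    intro h; rw [h, abs_zero] at hy; linarith
  rw [(removed hM hyy).1]
  simp only [rem, Matrix.of_apply]
  calc |M⁻¹ x b - M⁻¹ x y * M⁻¹ y b / M⁻¹ y y|
      ≤ |M⁻¹ x b| + |M⁻¹ x y * M⁻¹ y b / M⁻¹ y y| := abs_sub _ _
    _ = |M⁻¹ x b| + |M⁻¹ x y| * |M⁻¹ y b| / |M⁻¹ y y| := by rw [abs_div, abs_mul]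
    _ ≤ C₀ * w x b + (C₀ * w x y) * (C₀ * w y b) / K := by
        have e1 := hB x b
        have e2 := hB x y
        have e3 := hB y b
        have e4 := (hw0 x y).le
        have e5 := (hw0 y b).le
        gcongr
    _ = C₀ * w x b + C₀ ^ 2 / K * (w x y * w y b) := by ring
    _ ≤ C₀ * w x b + C₀ ^ 2 / K * w x b := by
        gcongr
        exact hw _ _ _
    _ = _ := by ring

/-- The difference of the Green functions in a window. -/
lemma window_diff {M : Matrix ι ι ℝ} (hM : IsUnit M) {C₀ u : ℝ} (hC : 0 < C₀)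
    (hu : 0 ≤ u) (hB : ∀ x b, |M⁻¹ x b| ≤ C₀) {U : ι → ℝ} (hU : ∀ x, |U x| ≤ u)
    (hM2 : IsUnit (M + diagonal U)) (hB2 : ∀ x b, |(M + diagonal U)⁻¹ x b| ≤ 2 * C₀) (x b : ι) :
    |(M + diagonal U)⁻¹ x b - M⁻¹ x b| ≤ Fintype.card ι * (C₀ * (u * (2 * C₀))) := by
  have h1 : M⁻¹ * M = 1 := nonsing_inv_mul _ ((isUnit_iff_isUnit_det _).mp hM)
  have h2 : (M + diagonal U) * (M + diagonal U)⁻¹ = 1 :=
    mul_nonsing_inv _ ((isUnit_iff_isUnit_det _).mp hM2)
  have h3 : M⁻¹ * ((M + diagonal U) * (M + diagonal U)⁻¹) = M⁻¹ := by rw [h2, mul_one]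
  rw [add_mul, mul_add, ← mul_assoc, h1, one_mul] at h3
  have h4 := congrFun (congrFun h3 x) b
  rw [Matrix.add_apply, mul_apply] at h4
  simp_rw [diagonal_mul] at h4
  have h5 : (M + diagonal U)⁻¹ x b - M⁻¹ x b =
      - ∑ z, M⁻¹ x z * (U z * (M + diagonal U)⁻¹ z b) := by
    rw [← h4]; ring
  rw [h5, abs_neg]
  calc |∑ z, M⁻¹ x z * (U z * (M + diagonal U)⁻¹ z b)|
      ≤ ∑ z, |M⁻¹ x z * (U z * (M + diagonal U)⁻¹ z b)| := Finset.abs_sum_le_sum_abs _ _
    _ ≤ ∑ _z : ι, C₀ * (u * (2 * C₀)) := by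
        apply Finset.sum_le_sum
        intro z _
        rw [abs_mul, abs_mul]
        have e1 := hB x z
        have e2 := hU z
        have e3 := hB2 z b
        gcongr
    _ = _ := by rw [Finset.sum_const, Finset.card_univ, nsmul_eq_mul]

omit [DecidableEq ι] in
/-- Perturbation of a quadratic form. -/
lemma form_diff {G G' : Matrix ι ι ℝ} {l m : ι → ℝ} (hl : ∀ x, |l x| ≤ 1) (hm : ∀ x, |m x| ≤ 1)
    {e : ℝ} (h : ∀ x b, |G x b - G' x b| ≤ e) :
    |(∑ x, ∑ x', l x * G x x' * m x') - ∑ x, ∑ x', l x * G' x x' * m x'| ≤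
      (Fintype.card ι : ℝ) ^ 2 * e := by
  have h1 : (∑ x, ∑ x', l x * G x x' * m x') - ∑ x, ∑ x', l x * G' x x' * m x' =
      ∑ x, ∑ x', l x * (G x x' - G' x x') * m x' := by
    rw [← Finset.sum_sub_distrib]
    apply Finset.sum_congr rfl; intro x _
    rw [← Finset.sum_sub_distrib]
    apply Finset.sum_congr rfl; intro x' _
    ring
  rw [h1]
  calc |∑ x, ∑ x', l x * (G x x' - G' x x') * m x'|
      ≤ ∑ x, |∑ x', l x * (G x x' - G' x x') * m x'| := Finset.abs_sum_le_sum_abs _ _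
    _ ≤ ∑ x, ∑ x', |l x * (G x x' - G' x x') * m x'| := by
        apply Finset.sum_le_sum; intro x _
        exact Finset.abs_sum_le_sum_abs _ _
    _ ≤ ∑ _x : ι, ∑ _x' : ι, e := by
        apply Finset.sum_le_sum; intro x _
        apply Finset.sum_le_sum; intro x' _
        rw [abs_mul, abs_mul]
        have e0 : 0 ≤ e := (abs_nonneg _).trans (h x x')
        calc |l x| * |G x x' - G' x x'| * |m x'| ≤ 1 * e * 1 := by
              have e1 := hl x
              have e2 := hm x'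
              have e3 := h x x'
              gcongr
          _ = e := by ring
    _ = _ := by
        rw [Finset.sum_const, Finset.sum_const, Finset.card_univ, nsmul_eq_mul, nsmul_eq_mul]
        ring

end Abs

/-! ### The operator of the box -/

/-- The Dirichlet operator of the box minus the energy. -/
noncomputable def HX (r : ℕ) (V : ℤ × ℤ → ℝ) (E : ℝ) : Matrix (Xr r) (Xr r) ℝ :=
  AX (Xr r) + diagonal (fun x : Xr r => V x - E)

/-- The same with the site `y` removed. -/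
noncomputable def HXy (r : ℕ) (V : ℤ × ℤ → ℝ) (E : ℝ) (y : Xr r) :
    Matrix {x : Xr r // x ≠ y} {x : Xr r // x ≠ y} ℝ :=
  (HX r V E).submatrix Subtype.val Subtype.val

/-- The resonant value of the potential at `y`: `(G y y)⁻¹ = V y - sE`. -/
noncomputable def sE (r : ℕ) (V : ℤ × ℤ → ℝ) (E : ℝ) (y : Xr r) : ℝ :=
  E + ∑ x : {x : Xr r // x ≠ y}, ∑ x' : {x : Xr r // x ≠ y},
    AX (Xr r) y x * (HXy r V E y)⁻¹ x x' * AX (Xr r) x' y

lemma AX_le (X : Finset (ℤ × ℤ)) (p q : X) : |AX X p q| ≤ 1 := by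
  unfold AX adjw
  split_ifs <;> simp

lemma AX_diag (X : Finset (ℤ × ℤ)) (p : X) : AX X p p = 0 := by
  unfold AX adjw
  simp

lemma HX_off {r : ℕ} (V : ℤ × ℤ → ℝ) (E : ℝ) {x y : Xr r} (h : x ≠ y) :
    HX r V E x y = AX (Xr r) x y := by
  unfold HX
  rw [Matrix.add_apply, Matrix.diagonal_apply_ne _ h, add_zero]

lemma HX_diag {r : ℕ} (V : ℤ × ℤ → ℝ) (E : ℝ) (y : Xr r) : HX r V E y y = V y - E := by
  unfold HX
  rw [Matrix.add_apply, Matrix.diagonal_apply_eq, AX_diag, zero_add]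

/-- The self-energy identity. -/
lemma sE_eq {r : ℕ} (V : ℤ × ℤ → ℝ) (E : ℝ) (y : Xr r) (hM : IsUnit (HX r V E))
    (hy : (HX r V E)⁻¹ y y ≠ 0) : ((HX r V E)⁻¹ y y)⁻¹ = V y - sE r V E y := by
  have h := (removed hM hy).2.2
  rw [HX_diag] at h
  have hs : (∑ x : {x : Xr r // x ≠ y}, ∑ x' : {x : Xr r // x ≠ y}, HX r V E y x *
      ((HX r V E).submatrix (Subtype.val : {x : Xr r // x ≠ y} → Xr r) Subtype.val)⁻¹ x x' *
      HX r V E x' y) = ∑ x : {x : Xr r // x ≠ y}, ∑ x' : {x : Xr r // x ≠ y},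
      AX (Xr r) y x * (HXy r V E y)⁻¹ x x' * AX (Xr r) x' y := by
    apply Finset.sum_congr rfl; intro x _
    apply Finset.sum_congr rfl; intro x' _
    rw [HX_off V E (fun h => x.2 h.symm), HX_off V E x'.2, HXy]
  rw [hs] at h
  rw [h, sE]
  ring

lemma HX_window {r : ℕ} (V Vs : ℤ × ℤ → ℝ) (E : ℝ) :
    HX r V E = HX r Vs E + diagonal (fun x : Xr r => V x - Vs x) := by
  unfold HX
  rw [add_assoc, Matrix.diagonal_add]
  congr 2
  funext x
  ring

lemma HXy_window {r : ℕ} (V Vs : ℤ × ℤ → ℝ) (E : ℝ) (y : Xr r) :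
    HXy r V E y = HXy r Vs E y +
      diagonal (fun x : {x : Xr r // x ≠ y} => V (x : Xr r) - Vs (x : Xr r)) := by
  unfold HXy
  rw [HX_window V Vs E]
  ext p q
  by_cases h : p = q
  · subst h; simp
  · have : (p : Xr r) ≠ q := fun hh => h (Subtype.ext hh)
    simp [h, this]

/-- The weight of the box. -/
lemma weight_mul {κ : ℝ} (h0 : 0 < κ) (h1 : κ < 1) (x z b : ℤ × ℤ) :
    κ ^ dist8 x z * κ ^ dist8 z b ≤ κ ^ dist8 x b := by
  rw [← pow_add]
  exact pow_le_pow_of_le_one h0.le h1.le (dist8_tri x z b)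

end P365SH
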