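import Vale.Agent.P365.SH.Final

/-!
P365 T1, **the shield** (final theorem, with windows).
-/

open MeasureTheory Set Matrix
open scoped ENNReal

namespace P365SH

open Vale.Agent.P365.C937

section Numbers

variable {n : ℝ}

lemma num1 {g : ℝ} (hg : 0 < g) (hn1 : 1 ≤ n) (hng : 1 + g / 16 ≤ n) {i j : ℕ}
    (hij : 2 * i + 1 = j) :
    n ^ i + (n ^ i) ^ 2 / (16 / g) ≤ n ^ j := by
  have hn0 : 0 < n := by linarith
  have e1 : (n ^ i) ^ 2 / (16 / g) = n ^ (2 * i) * (g / 16) := by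
    rw [← pow_mul, mul_comm i 2]
    field_simp
  rw [e1]
  have h1 : n ^ i ≤ n ^ (2 * i) := pow_le_pow_right₀ hn1 (by omega)
  calc n ^ i + n ^ (2 * i) * (g / 16) ≤ n ^ (2 * i) + n ^ (2 * i) * (g / 16) := by linarith
    _ = n ^ (2 * i) * (1 + g / 16) := by ring
    _ ≤ n ^ (2 * i) * n := mul_le_mul_of_nonneg_left hng (by positivity)
    _ = n ^ j := by rw [← hij, pow_succ]

lemma num2 (hn2 : 2 ≤ n) {i m : ℕ} (h : i + 3 ≤ m) {c : ℝ} (hc : c ≤ n ^ 2) :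
    c * (n ^ i * (n ^ m)⁻¹) ≤ 1 / 2 := by
  have hn0 : 0 < n := by linarith
  have hn1 : 1 ≤ n := by linarith
  have h3 : n ^ (i + 3) ≤ n ^ m := pow_le_pow_right₀ hn1 h
  have h4 : 0 < n ^ m := by positivity
  have h5 : 0 < n ^ i := by positivity
  calc c * (n ^ i * (n ^ m)⁻¹) ≤ n ^ 2 * (n ^ i * (n ^ m)⁻¹) :=
        mul_le_mul_of_nonneg_right hc (by positivity)
    _ = (n ^ 2 * n ^ i) / n ^ m := by rw [div_eq_mul_inv]; ring
    _ ≤ 1 / 2 := by
        rw [div_le_div_iff₀ h4 (by norm_num)]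
        have e : n ^ (i + 3) = n ^ 2 * n ^ i * n := by ring
        rw [e] at h3
        have : 0 < n ^ 2 * n ^ i := by positivity
        nlinarith

lemma num3 (hn2 : 2 ≤ n) {i j : ℕ} (h : i < j) : 2 * n ^ i ≤ n ^ j := by
  have hn1 : 1 ≤ n := by linarith
  have hn0 : 0 < n := by linarith
  have h3 : n ^ (i + 1) ≤ n ^ j := pow_le_pow_right₀ hn1 h
  rw [pow_succ] at h3
  have h4 : 0 < n ^ i := by positivity
  nlinarith

lemma num4 {g : ℝ} (hg : 0 < g) (hn1 : 1 ≤ n) (hng2 : 32 / g ≤ n) {c : ℝ} (hc0 : 0 ≤ c)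
    (hc : c ≤ n ^ 2) {i m : ℕ} (h : 2 * i + 7 ≤ m) :
    c ^ 2 * (c * (n ^ i * ((n ^ m)⁻¹ * (2 * n ^ i)))) ≤ g / 16 := by
  have hn0 : 0 < n := by linarith
  have h1 : c ^ 2 * (c * (n ^ i * ((n ^ m)⁻¹ * (2 * n ^ i)))) =
      c ^ 3 * (2 * n ^ (2 * i) / n ^ m) := by
    rw [div_eq_mul_inv, mul_comm 2 i, pow_mul]; ring
  have h2 : c ^ 3 ≤ (n ^ 2) ^ 3 := pow_le_pow_left₀ hc0 hc 3
  have h3 : n ^ (2 * i + 7) ≤ n ^ m := pow_le_pow_right₀ hn1 h
  have h4 : 0 < n ^ m := by positivity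
  rw [h1]
  calc c ^ 3 * (2 * n ^ (2 * i) / n ^ m) ≤ (n ^ 2) ^ 3 * (2 * n ^ (2 * i) / n ^ m) :=
        mul_le_mul_of_nonneg_right h2 (by positivity)
    _ = (2 * n ^ (2 * i + 6)) / n ^ m := by
        rw [pow_add]; ring
    _ ≤ 2 / n := by
        rw [div_le_div_iff₀ h4 hn0]
        have e : n ^ (2 * i + 7) = n ^ (2 * i + 6) * n := by
          rw [← pow_succ]
        rw [e] at h3
        nlinarith
    _ ≤ g / 16 := by
        rw [div_le_div_iff₀ hn0 (by norm_num)]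
        rw [div_le_iff₀ hg] at hng2
        linarith

end Numbers

/-- **The shield.** For every disorder `lam > 0` and every energy `|E| < 4 + lam` there are, on all
large boxes `[-r, r]²`, patterns `Vs` of size `≤ lam' < lam` and a site `y` near the centre such
that for all potentials in a polynomial window around `Vs`: the Dirichlet Green function of the
box without `y` decays exponentially with a polynomial prefactor, the resonant value `sE` of `y`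
(`(G y y)⁻¹ = V y - sE`) is of size `≤ lam'`, and in the window also the Green function of the
full box decays. -/
theorem shield {lam E : ℝ} (hlam : 0 < lam) (hE : |E| < 4 + lam) :
    ∃ (κ lam' : ℝ) (m R0 r0 : ℕ), 0 < κ ∧ κ < 1 ∧ 0 < lam' ∧ lam' < lam ∧
      ∀ r : ℕ, r0 ≤ r → ∃ (Vs : ℤ × ℤ → ℝ) (y : Xr r),
        |(y : ℤ × ℤ).1| < R0 ∧ |(y : ℤ × ℤ).2| < R0 ∧ (∀ x, |Vs x| ≤ lam') ∧
        ∀ V : ℤ × ℤ → ℝ, (∀ x : Xr r, x ≠ y → |V x - Vs x| ≤ ((2 * (r : ℝ) + 1) ^ m)⁻¹) →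
          IsUnit (HXy r V E y) ∧
          (∀ x b : {x : Xr r // x ≠ y}, |(HXy r V E y)⁻¹ x b| ≤
            (2 * (r : ℝ) + 1) ^ m * κ ^ dist8 (x : Xr r) (b : Xr r)) ∧
          |sE r V E y| ≤ lam' ∧
          (|V y - Vs y| ≤ ((2 * (r : ℝ) + 1) ^ m)⁻¹ → IsUnit (HX r V E) ∧
            ∀ x b : Xr r, |(HX r V E)⁻¹ x b| ≤
              (2 * (r : ℝ) + 1) ^ m * κ ^ dist8 x b) := by
  obtain ⟨κ, g, v, R0, r0, hκ, hκ1, hg, hv, hvg, h⟩ := shield_core hlam hE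
  obtain ⟨N1, hN1⟩ := exists_nat_gt (1 + g / 16)
  obtain ⟨N2, hN2⟩ := exists_nat_gt (32 / g)
  obtain ⟨m, hm⟩ : ∃ m : ℕ, 2 * 83 + 7 ≤ m := ⟨_, le_rfl⟩
  refine ⟨κ, v + g / 2, m, R0, max (max r0 1) (max N1 N2), hκ, hκ1, by positivity, by linarith, ?_⟩
  intro r hr
  have h1 : r0 ≤ r := by omega
  have h2 : 1 ≤ r := by omega
  have h3 : N1 ≤ r := by omega
  have h4 : N2 ≤ r := by omega
  have h2' : (1 : ℝ) ≤ r := by exact_mod_cast h2
  have h3' : (N1 : ℝ) ≤ r := by exact_mod_cast h3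
  have h4' : (N2 : ℝ) ≤ r := by exact_mod_cast h4
  obtain ⟨Vs, y, hy1, hy2, hb, hM, hdec, hK⟩ := h r h1
  refine ⟨Vs, y, hy1, hy2, fun x => (hb x).trans (by linarith), ?_⟩
  have n2 : 2 ≤ 2 * (r : ℝ) + 1 := by linarith
  have n1 : 1 ≤ 2 * (r : ℝ) + 1 := by linarith
  have n0 : 0 < 2 * (r : ℝ) + 1 := by linarith
  have hG : Good r E κ g v ((2 * (r : ℝ) + 1) ^ 41) ((2 * (r : ℝ) + 1) ^ 83)
      ((2 * (r : ℝ) + 1) ^ m)⁻¹ Vs y := by
    constructor
    · exact hκ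
    · exact hκ1
    · exact hg
    · exact pow_pos n0 _
    · exact pow_pos n0 _
    · exact inv_nonneg.2 (pow_pos n0 _).le
    · exact num1 hg n1 (by linarith) (by norm_num)
    · exact num2 n2 (by omega) (card_sub_le y)
    · exact num2 n2 (by omega) (by rw [Fintype.card_coe, card_Xr])
    · exact num4 hg n1 (by linarith) (Nat.cast_nonneg _) (card_sub_le y) hm
    · exact hb
    · exact hM
    · exact hdec
    · exact hK
  intro V hV
  refine ⟨(hG.win V hV).1, ?_, hG.sE_win V hV, ?_⟩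
  · intro x b
    refine ((hG.win V hV).2 x b).trans ?_
    exact mul_le_mul_of_nonneg_right (num3 n2 (by omega)) (kw_pos hκ _ _).le
  · intro hVy
    have hV' : ∀ x : Xr r, |V x - Vs x| ≤ ((2 * (r : ℝ) + 1) ^ m)⁻¹ := by
      intro x
      by_cases hx : x = y
      · rw [hx]; exact hVy
      · exact hV x hx
    refine ⟨(hG.full V hV').1, ?_⟩
    intro x b
    refine ((hG.full V hV').2 x b).trans ?_
    exact mul_le_mul_of_nonneg_right (num3 n2 (by omega)) (kw_pos hκ _ _).le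

end P365SH
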